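import Vale.Agent.P352Z.Pub
import Vale.Agent.P352Z.Fam
import Vale.Agent.P352X.FSS.B
import Vale.Agent.P352X.CL.Pub0
import Vale.Agent.P352X.R.GRP.C

/-!
# P352Z, block S0: the closure of a theory under sums and derivatives
-/

set_option linter.all false

open Filter Topology
open scoped ComplexConjugate

namespace Vale.Agent.P352X.ZZ.S0

open Vale.Agent.P352 Vale.Agent.P352.GF Vale.Agent.P352.BW Vale.Agent.P352.H246
open Vale.Agent.P352.H496 Vale.Agent.P352.H755 Vale.Agent.P352.H15
open Vale.Agent.P352X.Fss Vale.Agent.P352Z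
open UniformSpace (Completion)

noncomputable section

variable {D : Type*} [NormedAddCommGroup D] [InnerProductSpace ℂ D] {Q : Theory D}
  {A : (V → V) → D → D} {B C : Fld D} {f g : Fn} {s : ℝ}

lemma pd_lin (m : Ix) {f f' : Fn} (a : ℂ) (hf : IsTest f) (hf' : IsTest f') :
    (pd m fun x => f x + a * f' x) = fun x => pd m f x + a * pd m f' x := by
  funext x
  rw [← Ap.dv_bas, Ap.dv_add (Ap.sw_diff hf x) ((Ap.sw_diff hf' x).const_mul a), Ap.dv_cmul,
    Ap.dv_bas, Ap.dv_bas]

lemma pd_sim (k : Ix) {s : ℝ} {L : Ix → V} (a : V) (hs : 0 < s) (hL : IsLor L) {f : Fn}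
    (hf : IsTest f) : (pd k fun x => f (sim s L a x)) =
      fun x => ∑ j, ((s * L k j : ℝ) : ℂ) * pd j f (sim s L a x) := by
  funext x
  let A : V →L[ℝ] V := (H755.simE s L hs hL).toContinuousLinearEquiv
  have e : ∀ x, sim s L a x = A x + a := fun x => by
    show _ = H755.simE s L hs hL x + a
    rw [H755.simE_apply, HM.sim_at s L a]
  have e2 : ∀ j, A (bas k 1) j = s * L k j := fun j => by
    show H755.simE s L hs hL (bas k 1) j = _
    rw [H755.simE_apply]
    simp [sim, bas]
  simp only [e]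
  rw [← Ap.dv_bas, Ap.dv_aff A a (Ap.sw_diff hf _), dv]
  simp only [e2]

lemma pd_tr (m : Ix) (a : V) (f : Fn) : (pd m fun x => f (sim 1 GF.one a x)) =
    fun x => pd m f (sim 1 GF.one a x) := by
  funext x
  simp only [HM.sim_tr]
  rw [← Ap.dv_bas, ← Ap.dv_bas, Ap.dv_tr]

lemma pd_bar (m : Ix) (hf : IsTest f) : pd m (bar f) = bar (pd m f) := by
  funext x
  rw [← Ap.dv_bas, ← Ap.dv_bas, Ap.dv_bar (Ap.sw_diff hf x)]

lemma pd_pd (m n : Ix) (hf : IsTest f) : pd m (pd n f) = pd n (pd m f) := by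
  funext x
  simp only [← Ap.dv_bas]
  exact Ap.dv_comm (Ap.sw_smooth hf) _ _ x

lemma sep_pd (m : Ix) (h : Sep f g) : Sep f (pd m g) := fun x hx y hy =>
  h x hx y (Ap.tsupport_pd m g hy)

lemma sep_symm (h : Sep f g) : Sep g f := fun x hx y hy => by
  have := h y hy x hx
  simp only [GF.mdot] at this ⊢
  refine lt_of_eq_of_lt (Finset.sum_congr rfl fun m _ => ?_) this
  ring

lemma sep_bar (h : Sep f g) : Sep (bar f) (bar g) := fun x hx y hy =>
  h x (Ap.tsupport_bar f ▸ hx) y (Ap.tsupport_bar g ▸ hy)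

lemma tsupp_ds (hs : 0 < s) {x : V} (hx : x ∈ tsupport (ds s f)) : s • x ∈ tsupport f := by
  rw [show ds s f = f ∘ Homeomorph.smulOfNeZero s hs.ne' from funext (ds_apply s f)] at hx
  exact tsupport_comp_subset_preimage _ (Homeomorph.continuous _) hx

lemma sep_ds (hs : 0 < s) (h : Sep f g) : Sep (ds s f) (ds s g) := fun x hx y hy => by
  have := h _ (tsupp_ds hs hx) _ (tsupp_ds hs hy)
  have e : mdot (fun m => (s • x) m - (s • y) m) (fun m => (s • x) m - (s • y) m) =
      s ^ 2 * mdot (fun m => x m - y m) (fun m => x m - y m) := by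
    simp only [GF.mdot, Finset.mul_sum, Pi.smul_apply, smul_eq_mul]
    exact Finset.sum_congr rfl fun m _ => by ring
  rw [e] at this
  exact neg_of_mul_neg_left (mul_comm (s ^ 2) _ ▸ this) (sq_nonneg s)

lemma ds_inv' (hs : 0 < s) (f : Fn) : ds s (ds s⁻¹ f) = f := by
  simpa only [inv_inv] using ds_inv (inv_pos.2 hs) f

/-- the formal adjoint -/
def Ad (B C : Fld D) : Prop :=
  ∀ f v w, IsTest f → inner ℂ (B f v) w = inner ℂ v (C (bar f) w)

lemma Ad.symm (h : Ad B C) : Ad C B := fun f v w hf => by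
  rw [← inner_conj_symm, ← inner_conj_symm v, h _ _ _ (Ap.test_bar hf), Ap.bar_bar]

/-- operators with a formal adjoint are linear -/
def adL {X X' : D → D} (h : ∀ v w, inner ℂ (X v) w = inner ℂ v (X' w)) : D →ₗ[ℂ] D where
  toFun := X
  map_add' v w := ext_inner_right ℂ fun z => by simp only [inner_add_left, h]
  map_smul' c v := ext_inner_right ℂ fun z => by simp only [inner_smul_left, h, RingHom.id_apply]

/-- finite linear combinations of derivatives -/
inductive Cl (P : Fld D → Prop) : Fld D → Prop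
  | base {B : Fld D} : P B → Cl P B
  | zero : Cl P fun _ _ => 0
  | lin {B C : Fld D} (c : ℂ) : Cl P B → Cl P C → Cl P fun f v => B f v + c • C f v
  | der {B : Fld D} (m : Ix) : Cl P B → Cl P fun f v => B (pd m f) v
  | cg {B C : Fld D} : Cl P B → (∀ f v, IsTest f → C f v = B f v) → Cl P C

/-- local relative to all fields -/
def Lo (Q : Theory D) (B : Fld D) : Prop :=
  ∀ C f g v, Q.fld C → IsTest f → IsTest g → Sep f g → B f (C g v) = C g (B f v)

lemma cl_adj (h : Cl Q.fld B) : ∃ C, Cl Q.fld C ∧ Ad B C := by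
  induction h with
  | base h => exact let ⟨C, h1, h2⟩ := Q.adj _ h; ⟨C, .base h1, h2⟩
  | zero => exact ⟨_, .zero, fun _ _ _ _ => by simp⟩
  | lin c _ _ h1 h2 =>
    obtain ⟨B', a1, b1⟩ := h1
    obtain ⟨C', a2, b2⟩ := h2
    exact ⟨_, .lin (conj c) a1 a2, fun f v w hf => by
      simp only [inner_add_left, inner_add_right, inner_smul_left, inner_smul_right, b1 f v w hf,
        b2 f v w hf]⟩
  | der m _ h1 =>
    obtain ⟨B', a1, b1⟩ := h1
    exact ⟨_, .der m a1, fun f v w hf => by
      simp only [b1 _ v w (Ap.test_pd m hf), pd_bar m hf]⟩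
  | cg _ e h1 =>
    obtain ⟨B', a1, b1⟩ := h1
    exact ⟨_, a1, fun f v w hf => by rw [e f v hf, b1 f v w hf]⟩

lemma cl_loc {X : D →ₗ[ℂ] D} (h : Cl Q.fld C)
    (hX : ∀ C g v, Q.fld C → IsTest g → Sep f g → X (C g v) = C g (X v)) :
    ∀ g v, IsTest g → Sep f g → X (C g v) = C g (X v) := by
  induction h with
  | base h => exact fun g v => hX _ g v h
  | zero => exact fun _ _ _ _ => map_zero X
  | lin c _ _ h1 h2 => exact fun g v hg k => by rw [map_add, map_smul, h1 g v hg k, h2 g v hg k]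
  | der m _ h1 => exact fun g v hg k => h1 _ v (Ap.test_pd m hg) (sep_pd m k)
  | cg _ e h1 => exact fun g v hg k => by rw [e g v hg, e g _ hg, h1 g v hg k]

/-- the closure of a theory -/
def clo (Q : Theory D) : Theory D :=
  { Q with
    fld := Cl Q.fld
    bose := fun B => Cl Q.fld B ∧ Lo Q B
    cyclic := fun S h0 h => Q.cyclic S h0 fun B f v hB => h B f v (.base hB)
    lin := fun B f g c v hB => by
      induction hB generalizing f g with
      | base h => exact Q.lin _ f g c v h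
      | zero => exact fun _ _ => by simp
      | lin a _ _ h1 h2 =>
        intro hf hg
        simp only [h1 f g hf hg, h2 f g hf hg, smul_add, smul_comm a c]
        abel
      | der m _ h1 =>
        intro hf hg
        simp only [pd_lin m c hf hg, h1 _ _ (Ap.test_pd m hf) (Ap.test_pd m hg)]
      | cg _ e h1 =>
        intro hf hg
        rw [e _ v (Ap.sw_lin c hf hg), e _ v hf, e _ v hg, h1 f g hf hg]
    cont := fun B v hB => by
      induction hB with
      | base h => exact Q.cont _ v h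
      | zero => exact continuous_const
      | lin a _ _ h1 h2 => exact h1.add (h2.const_smul a)
      | der m _ h1 =>
        simp only [Grp.pd_ev]
        exact h1.comp (LineDeriv.lineDerivOpCLM ℂ Sch (bas m 1 : V)).continuous
      | cg _ e h1 => exact h1.congr fun g => (e _ v ⟨g, rfl⟩).symm
    adj := fun B hB => cl_adj hB
    bose_fld := fun B hB => hB.1
    loc := fun B C f g v hB hC hf hg k => by
      obtain ⟨B', -, b⟩ := cl_adj hB.1
      exact cl_loc (X := adL fun v w => b f v w hf) hC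
        (fun C g v hC hg k => hB.2 C f g v hC hf hg k) g v hg k
    transl := fun B a f v hB => by
      induction hB generalizing f with
      | base h => exact Q.transl _ a f v h
      | zero => exact fun _ => (map_zero (ueI Q one_pos H496.isLor_one a)).symm
      | lin c _ _ h1 h2 =>
        intro hf
        simp only [h1 f hf, h2 f hf, U_add one_pos H496.isLor_one, U_smul one_pos H496.isLor_one]
      | der m _ h1 => exact fun hf => by simp only [h1 _ (Ap.test_pd m hf), pd_tr]
      | cg _ e h1 =>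
        intro hf
        rw [e f _ hf, e _ v (Ap.test_sim one_pos H496.isLor_one a hf), h1 f hf] }

lemma clo_enl (Q : Theory D) : IsEnl Q (clo Q) :=
  ⟨rfl, rfl, fun _ h => Cl.base h, fun B h => ⟨.base (Q.bose_fld B h),
    fun C f g v hC => Q.loc B C f g v h hC⟩⟩

lemma clo_rep (R : Rep Q A) : Rep (clo Q) A := ⟨R.mul, R.add, R.der⟩

lemma clo_tf (h : TfGen Q) : TfGen (clo Q) := fun S h0 k =>
  h S h0 fun n Φ μ f v hΦ => k n Φ μ f v ⟨fun μ => Cl.base (hΦ.1 μ), hΦ.2⟩

lemma clo_lnm {N : Set V → VonNeumannAlgebra (Completion D)} (h : LNm Q A N) :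
    LNm (clo Q) A N := by
  refine ⟨clo_rep h.toRep, fun O B f hB => ?_, h.mono, h.cov, h.loc⟩
  induction hB generalizing f with
  | base k => exact h.fld O _ f k
  | zero => exact fun _ => ⟨_, Grp.afs_zero⟩
  | lin c _ _ h1 h2 =>
    intro hf
    obtain ⟨_, a⟩ := h1 f hf
    obtain ⟨_, b⟩ := h2 f hf
    exact ⟨_, Grp.afs_add a (Grp.afs_smul c b)⟩
  | der m _ h1 => exact fun hf => h1 _ (Ap.in_pd m hf)
  | cg _ e h1 =>
    intro hf
    rw [show _ = _ from funext fun v => e f v hf.1]
    exact h1 f hf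

/-- theories whose fields are closed under linear combinations, derivatives and dilations -/
structure Clo (Q : Theory D) : Prop where
  zero : Q.fld fun _ _ => 0
  lin : ∀ B C (c : ℂ), Q.fld B → Q.fld C → Q.fld fun f v => B f v + c • C f v
  der : ∀ B m, Q.fld B → Q.fld fun f v => B (pd m f) v
  cg : ∀ B C, Q.fld B → (∀ f v, IsTest f → C f v = B f v) → Q.fld C
  dil : ∀ B s hs, Q.fld B → Q.fld (dl Q s hs B)
  bos : ∀ B, Q.fld B → Lo Q B → Q.bose B

lemma cl_sum {P : Fld D → Prop} {ι : Type*} (t : Finset ι) (c : ι → ℂ) {X : ι → Fld D}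
    (h : ∀ i, Cl P (X i)) : Cl P fun f v => ∑ i ∈ t, c i • X i f v := by
  classical
  induction t using Finset.induction_on with
  | empty => exact .cg .zero fun _ _ _ => by simp
  | insert i t hi ih =>
    refine .cg (.lin (c i) ih (h i)) fun _ _ _ => ?_
    rw [Finset.sum_insert hi, add_comm]

lemma clo_clo (R : Rep Q A) (hF : FSL Q) : Clo (clo Q) := by
  refine ⟨Cl.zero, fun _ _ c => Cl.lin c, fun _ m => Cl.der m, fun _ _ => Cl.cg,
    fun B s hs hB => ?_, fun B hB h => ⟨hB, fun C f g v hC => h C f g v (Cl.base hC)⟩⟩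
  show Cl Q.fld (dl Q s hs B)
  induction hB with
  | base h =>
    obtain ⟨F, C, h1, h2⟩ := hF _ h
    refine .cg (cl_sum F (fun p => ((s⁻¹ : ℝ) : ℂ) ^ (4 - p.1) * (Real.log s⁻¹ : ℂ) ^ p.2)
      fun p => .base (h1 p).1) fun f v hf => ?_
    refine (congrArg (u Q s hs) (h2 s⁻¹ _ v (inv_pos.2 hs) (ds_test hs hf))).trans ?_
    rw [map_sum]
    refine Finset.sum_congr rfl fun p _ => ?_
    rw [map_smul]
    exact congrArg _ ((u_inv R hs _).trans (congrArg (C p · v) (ds_inv hs f)))
  | zero => exact .cg .zero fun _ _ _ => map_zero (u Q s hs)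
  | lin c _ _ h1 h2 => exact .cg (.lin c h1 h2) fun _ _ _ => by simp only [Fss.dl, map_add, map_smul]
  | der m k h1 =>
    refine .cg (.lin s .zero (.der m h1)) fun f v hf => ?_
    simp only [Fss.dl, ds_pd hs hf, zero_add]
    rw [lin1 (Q := clo Q) k (ds_test hs (Ap.test_pd m hf)), map_smul]
  | cg _ e h1 => exact .cg h1 fun f v hf => by simp only [Fss.dl, e _ _ (ds_test hs hf)]

namespace Clo

variable (h : Clo Q)
include h

lemma lo (hB : Q.bose B) : Lo Q B := fun C f g v hC => Q.loc B C f g v hB hC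

lemma bcg (hB : Q.bose B) (e : ∀ f v, IsTest f → C f v = B f v) : Q.bose C :=
  h.bos _ (h.cg _ _ (Q.bose_fld _ hB) e) fun E f g v hE hf hg k => by
    rw [e f _ hf, e f _ hf, Q.loc B E f g v hB hE hf hg k]

lemma bzero : Q.bose fun _ _ => 0 :=
  h.bos _ h.zero fun E f g v hE hf hg k => (map_zero (fl hE hg)).symm

lemma blin (c : ℂ) (hB : Q.bose B) (hC : Q.bose C) : Q.bose fun f v => B f v + c • C f v :=
  h.bos _ (h.lin _ _ c (Q.bose_fld _ hB) (Q.bose_fld _ hC)) fun E f g v hE hf hg k => by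
    rw [Q.loc B E f g v hB hE hf hg k, Q.loc C E f g v hC hE hf hg k, ← fl_apply hE hg (_ + _),
      map_add, map_smul]
    rfl

lemma bder (m : Ix) (hB : Q.bose B) : Q.bose fun f v => B (pd m f) v :=
  h.bos _ (h.der _ m (Q.bose_fld _ hB)) fun E f g v hE hf hg k =>
    Q.loc B E _ g v hB hE (Ap.test_pd m hf) hg (sep_symm (sep_pd m (sep_symm k)))

lemma bsum {ι : Type*} (t : Finset ι) (c : ι → ℂ) {X : ι → Fld D} (hX : ∀ i, Q.bose (X i)) :
    Q.bose fun f v => ∑ i ∈ t, c i • X i f v := by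
  classical
  induction t using Finset.induction_on with
  | empty => exact h.bcg h.bzero fun _ _ _ => by simp
  | insert i t hi ih =>
    refine h.bcg (h.blin (c i) ih (hX i)) fun _ _ _ => ?_
    rw [Finset.sum_insert hi, add_comm]

lemma bsmul (c : ℂ) (hB : Q.bose B) : Q.bose fun f v => c • B f v :=
  h.bcg (h.blin c h.bzero hB) fun _ _ _ => (zero_add _).symm

lemma bdil (R : Rep Q A) (hs : 0 < s) (hB : Q.bose B) : Q.bose (dl Q s hs B) :=
  h.bos _ (h.dil _ s hs (Q.bose_fld _ hB)) fun E f g v hE hf hg k => by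
    have := Q.loc B _ _ _ (u Q s⁻¹ (inv_pos.2 hs) v) hB (h.dil E s⁻¹ (inv_pos.2 hs) hE)
      (ds_test hs hf) (ds_test hs hg) (sep_ds hs k)
    simp only [Fss.dl, ds_inv hs, inv_inv, u_inv R] at this ⊢
    rw [this, u_inv R]

lemma badj (hB : Q.bose B) (hC : Q.fld C) (a : Ad B C) : Q.bose C :=
  h.bos _ hC fun E f g v hE hf hg k => ext_inner_left ℂ fun w => by
    obtain ⟨E', hE', b⟩ := Q.adj E hE
    have b' := Ad.symm b
    have a1 : ∀ x y, inner ℂ x (C f y) = inner ℂ (B (bar f) x) y := fun x y => by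
      rw [a _ _ _ (Ap.test_bar hf), Ap.bar_bar]
    have b1 : ∀ x y, inner ℂ x (E g y) = inner ℂ (E' (bar g) x) y := fun x y => by
      rw [b' _ _ _ (Ap.test_bar hg), Ap.bar_bar]
    rw [a1, b1, b1, a1, Q.loc B E' _ _ w hB hE' (Ap.test_bar hf) (Ap.test_bar hg) (sep_bar k)]

end Clo

end

end Vale.Agent.P352X.ZZ.S0
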