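import Vale.Agent.P352Z.S0.Ch
import Vale.Agent.P352X.CL.BZ

/-!
# P352Z, block S0: no logarithms
-/

set_option linter.all false

open MeasureTheory Filter Topology
open scoped ComplexConjugate

namespace Vale.Agent.P352X.ZZ.S0

open Vale.Agent.P352 Vale.Agent.P352.GF Vale.Agent.P352.BW Vale.Agent.P352.H246
open Vale.Agent.P352.H496 Vale.Agent.P352.H755 Vale.Agent.P352.H15
open Vale.Agent.P352X.Fss Vale.Agent.P352Z
open UniformSpace (Completion)

noncomputable section

variable {D : Type*} [NormedAddCommGroup D] [InnerProductSpace ℂ D] {Q : Theory D}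
  {A : (V → V) → D → D} {T : Ix → Ix → Fld D} {k : ℕ} {Sj : ℕ → Ix → Ix → Fld D}
  {Vj : ℕ → Ix → Fld D} {i : Ix}

/-- boosts along the axis `i` -/
def bb (i : Ix) (α β : ℝ) : Ix → V :=
  H755.bst (bas o 1 + bas i 1) ((1 / 2 : ℝ) • (bas o 1 - bas i 1)) α β

lemma bb_lor (hi : i ≠ o) {α β : ℝ} (hα : 0 < 1 + α) (h : (1 + α) * (1 + β) = 1) :
    IsLor (bb i α β) := by
  refine isLor_bst ⟨?_, ?_⟩ ⟨?_, ?_⟩ ?_ hα h <;> fin_cases i <;>
    simp [GF.mdot, Fin.sum_univ_four, bas, eta, o] at hi ⊢ <;> norm_num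

lemma bb_p (hi : i ≠ o) : IsLor (bb i 1 (-1 / 2)) := bb_lor hi (by norm_num) (by norm_num)

lemma bb_m (hi : i ≠ o) : IsLor (bb i (-1 / 2) 1) := bb_lor hi (by norm_num) (by norm_num)

lemma tens1 (y : Ix → Ix → ℂ) (hs : ∀ k l, y k l = y l k) {n : Ix} (hi : i ≠ o) (hn : n ≠ o)
    (h : ∑ k, ∑ l, (bb i 1 (-1 / 2) k i * bb i 1 (-1 / 2) l n : ℂ) * y k l =
      ∑ k, ∑ l, (bb i (-1 / 2) 1 k i * bb i (-1 / 2) 1 l n : ℂ) * y k l) : y o n = 0 := by
  have h1 := hs n o
  fin_cases i <;> fin_cases n <;>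
    simp [bb, H755.bst, Fin.sum_univ_four, bas, eta, o] at hi hn h h1 ⊢ <;>
    first
    | linear_combination (2 / 3) * h
    | linear_combination (4 / 15) * h - (1 / 2) * h1

lemma bb_bas (hi : i ≠ o) :
    bas o 1 = (4 / 3 : ℝ) • (sim 1 (bb i 1 (-1 / 2)) 0 (bas i 1) + (-5 / 4 : ℝ) • bas i 1) ∧
    bas i 1 = (4 / 3 : ℝ) • (sim 1 (bb i 1 (-1 / 2)) 0 (bas o 1) + (-5 / 4 : ℝ) • bas o 1) := by
  constructor <;> funext n <;> fin_cases i <;> fin_cases n <;>
    simp [sim, bb, H755.bst, Fin.sum_univ_four, bas, eta, o] at hi ⊢ <;> norm_num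

/-- if a translation commutes with the fields then the theory is trivial -/
theorem degen (R : Rep Q A) (hU : UVac Q) (hT : Stress0 Q T) {j : Ix}
    (h : ∀ B f v, Q.fld B → IsTest f → HasCompactSupport f →
      A (fun _ => bas j 1) (B f v) = B f (A (fun _ => bas j 1) v)) {f : Fn} (hf : IsTest f)
    (v : D) : T o 1 f v = 0 := by
  have cs := const_sim
  have z0 : ∀ v, A (fun _ => bas j 1) v = 0 := fun w => by
    have d := Q.cyclic (LinearMap.ker (AL R (cs (bas j 1)))) (H746.A_vac R (cs _))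
      fun B g u hB ⟨G, hG⟩ hu => ext_inner_left ℂ fun z => by
        have := ST.vanish_of_compact (innerSL ℂ (A (fun _ => bas j 1) z) ∘L Grp.fC hB u) G
          fun G' hc _ => by
            show inner ℂ _ (B (ev G') u) = 0
            rw [H746.A_symm R (cs _), h B _ u hB ⟨G', rfl⟩ hc, show A _ u = 0 from hu,
              show B _ 0 = 0 from map_zero (fl hB ⟨G', rfl⟩), inner_zero_right]
        rw [inner_zero_right, ← hG]
        exact (H746.A_symm R (cs _) _ _).symm.trans this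
    refine ext_inner_right ℂ fun z => ?_
    refine Dense.induction d (P := fun z => inner ℂ (A (fun _ => bas j 1) w) z = inner ℂ 0 z)
      (fun u hu => ?_) (isClosed_eq (by fun_prop) (by fun_prop)) z
    rw [H746.A_symm R (cs _), show A _ u = 0 from hu, inner_zero_right, inner_zero_left]
  let P : V → Prop := fun c => ∀ v, A (fun _ => c) v = 0
  have p1 : ∀ x y (t : ℝ), P x → P y → P (x + t • y) := fun x y t hx hy v => by
    rw [R.add 0 0 t _ _ v (cs x) (cs y), hx, hy, smul_zero, add_zero]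
  have p2 : ∀ x (t : ℝ), P x → P (t • x) := fun x t hx =>
    zero_add (t • x) ▸ p1 0 x t (A_zero' R) hx
  have p3 : ∀ x L, IsLor L → P x → P (sim 1 L 0 x) := fun x L hL hx v => by
    have := N86.A_conj R (cs x) one_pos hL 0 (Q.U 1⁻¹ (linv L) (-(sim 1⁻¹ (linv L) 0 0)) v)
    rw [hx, ue_inv R one_pos hL, one_smul] at this
    exact this.symm.trans (map_zero (UL Q one_pos hL 0))
  have p4 : P (bas o 1) := by
    by_cases hj : j = o
    · exact hj ▸ z0
    · exact (bb_bas hj).1 ▸ p2 _ _ (p1 _ _ _ (p3 _ _ (bb_p hj) z0) z0)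
  have p5 : ∀ m, P (bas m 1) := fun m => by
    by_cases hj : m = o
    · exact hj ▸ p4
    · exact (bb_bas hj).2 ▸ p2 _ _ (p1 _ _ _ (p3 _ _ (bb_p hj) p4) p4)
  have p6 : ∀ c, P c := fun c => by
    convert p1 _ _ (c 3) (p1 _ _ (c 2) (p1 _ _ (c 1) (p2 _ (c 0) (p5 0)) (p5 1)) (p5 2)) (p5 3)
    funext n
    fin_cases n <;> simp [bas]
  have u1 : ∀ c v, Q.U 1 GF.one c v = v := fun c v => by
    have d : ∀ t, HasDerivAt (fun t : ℝ => Q.U 1 GF.one (t • c) v) 0 t := fun t => by
      have := R.der (fun _ => 1) (fun _ => GF.one) (fun e => e • c) (fun _ => c)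
        (Q.U 1 GF.one (t • c) v) rfl rfl (zero_smul _ _) (fun _ => ⟨one_pos, H496.isLor_one⟩)
        fun n x => by
          simpa [sim] using hasDerivAt_mul_const (c n)
      rw [p6, smul_zero, ← sub_self t] at this
      simpa only [Uadd1, ← add_smul, sub_add_cancel] using this.comp_sub_const t t
    simpa only [one_smul, zero_smul, Uone] using
      is_const_of_deriv_eq_zero (fun t => (d t).differentiableAt) (fun t => (d t).deriv) 1 0
  refine FE.bz (hT.bose o 1) (fun f hf => ?_) hf v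
  obtain ⟨c, hc⟩ := hU (T o 1 f Q.vac : D) fun a => by rw [ue_coe one_pos H496.isLor_one, u1]
  have e : T o 1 f Q.vac = c • Q.vac := Completion.coe_injective D (by
    simpa only [om, Completion.coe_smul] using hc)
  choose y hy using fun m n => vev_int (Q.bose_fld _ (hT.bose m n))
  have cv : ∀ L, IsLor L → ∑ k, ∑ l, (L k 1 * L l 1 : ℂ) * inner ℂ Q.vac (T k l f Q.vac) =
      inner ℂ Q.vac (T 1 1 f Q.vac) := fun L hL => by
    have := congrArg (inner ℂ (Q.U 1 L 0 Q.vac)) (hT.cov 1 1 L 0 f Q.vac hL hf)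
    simp only [inner_sum, inner_smul_right, Q.U_inner _ _ _ _ _ one_pos hL,
      hy _ _ _ (Ap.test_sim one_pos hL 0 hf), (conf_lor hL).sc.integral] at this
    simp only [Q.U_vac _ _ _ one_pos hL, one_pow, inv_one, one_smul, ← hy _ _ _ hf] at this
    exact this.symm
  have o1 : (1 : Ix) ≠ o := by decide
  have := tens1 _ (fun k l => by rw [hT.symm k l f _ hf]) o1 o1
    ((cv _ (bb_p o1)).trans (cv _ (bb_m o1)).symm)
  rw [e, inner_smul_right, inner_self_eq_norm_sq_to_K, Q.norm_vac] at this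
  rw [e, show c = 0 by simpa using this, zero_smul]

/-- **no logarithms in dimension four** -/
theorem nolog (hT : Stress0 Q T) (R : Rep Q A) (hU : UVac Q) (h : Out (clo Q) A k Sj Vj)
    (hS : ∀ m n, ∃ F C, Scl Q (T m n) F C ∧ ∀ j f v, IsTest f →
      ((4, j) ∈ F → Sj j m n f v = (j.factorial : ℂ) • C (4, j) f v) ∧
        ((4, j) ∉ F → Sj j m n f v = 0))
    (h0 : ∀ j m n f v, 1 ≤ j → IsTest f → Sj j m n f v = 0) : NoLog Q T := fun m n => by
  classical
  obtain ⟨F, C, h1, h2⟩ := hS m n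
  have c0 : ∀ p ∈ F.filter (·.1 = 4), p ≠ (4, 0) → ∀ g v, IsTest g → C p g v = 0 :=
    fun ⟨d, j⟩ hp k g v hg => by
      obtain ⟨a, rfl⟩ := Finset.mem_filter.1 hp
      have := (h2 j g v hg).1 a
      rw [h0 j m n g v (Nat.one_le_iff_ne_zero.2 fun e => k (by rw [e])) hg] at this
      exact (smul_eq_zero.1 this.symm).resolve_left (Nat.cast_ne_zero.2 j.factorial_ne_zero)
  obtain ⟨Z, hZ, e⟩ : ∃ Z, Q.bose Z ∧ ∀ (a : ℂ × ℕ → ℂ) (y : D →ₗ[ℂ] D) g v, IsTest g →
      ∑ p ∈ F.filter (·.1 = 4), a p • y (C p g v) = a (4, 0) • y (Z g v) := by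
    by_cases h4 : (4, 0) ∈ F
    · exact ⟨_, (h1.1 (4, 0)).2 (hT.bose m n), fun a y g v hg => Finset.sum_eq_single _
        (fun p hp k => by rw [c0 p hp k g v hg, map_zero, smul_zero])
        fun k => (k (Finset.mem_filter.2 ⟨h4, rfl⟩)).elim⟩
    have s := h.svl 0
    have z1 : ∀ g v, IsTest g → fam2 k Sj 0 m n g v = 0 := fun g v t => by
      simp only [fam2, ex0]
      refine Finset.sum_eq_zero fun j _ => ?_
      rcases Nat.eq_zero_or_pos j with rfl | hj
      · rw [(h2 0 _ _ t).2 h4, smul_zero]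
      · rw [h0 j m n _ _ hj t, smul_zero]
    have z : ∀ L, IsLor L → ∀ g v w, IsTest g →
        ∑ a, ∑ b, (L a m * L b n : ℂ) * inner ℂ w (fam2 k Sj 0 a b g v) = 0 :=
      fun L hL g v w hg => by
        have t := Ap.test_sim one_pos (isLor_linv hL) 0 hg
        have := congrArg (inner ℂ ((clo Q).U 1 L 0 w)) (s.cT m n L 0 _ v hL t)
        have e : ∀ x, sim 1 (linv L) 0 (sim 1 L 0 x) = x := fun x =>
          (conf_lor hL).cle.injective (sim_linv hL _)
        simpa only [z1 _ _ t, inner_sum, inner_smul_right, e, inner_zero_right,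
          (clo Q).U_inner _ _ _ _ _ one_pos hL] using this.symm
    obtain ⟨j, hj⟩ : ∃ j, ∀ g v, IsTest g → fam2 k Sj 0 o j g v = 0 := by
      by_cases hn : n = o
      · exact ⟨m, fun g v hg => by rw [s.symm _ _ g v hg, ← hn, z1 g v hg]⟩
      by_cases hm : m = o
      · exact ⟨n, hm ▸ z1⟩
      · exact ⟨n, fun g v hg => ext_inner_left ℂ fun w => (tens1 _
          (fun a b => by rw [s.symm a b g v hg]) hm hn ((z _ (bb_p hm) g v w hg).trans
            (z _ (bb_m hm) g v w hg).symm)).trans (inner_zero_right _).symm⟩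
    refine ⟨T o 1, hT.bose _ _, fun a y g v hg => ?_⟩
    rw [degen R hU hT (j := j) (fun B f v hB hf hc => sub_eq_zero.1 (ext_inner_left ℂ fun w =>
      tendsto_nhds_unique (h.pch 0 _ _ B f v w isCutoff_cutF (const_sim _) (Cl.base hB) hf hc)
        (tendsto_const_nhds.congr' ((isTest_cutoff isCutoff_cutF).mono fun ρ hρ => ?_)))) hg,
      map_zero, smul_zero]
    · exact Finset.sum_eq_zero fun p hp => by
        rw [c0 p hp (fun k => h4 (k ▸ (Finset.mem_filter.1 hp).1)) g v hg, map_zero, smul_zero]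
    · have e : ∀ u, ND.cur (fam2 k Sj 0) (fun _ => bas j 1) (cutF ρ) u = 0 := fun u =>
        Finset.sum_eq_zero fun b _ => by
          by_cases hb : b = j
          · exact hb ▸ hj _ u (test_sim0 (const_sim _) hρ _)
          · simpa [bas, hb] using lin0 (s.fT o b) u
      simp only [e, show B f 0 = 0 from map_zero (fl hB hf), sub_zero]
  refine ⟨insert (4, 0) (F.filter (·.1 ≠ 4)), Function.update C (4, 0) Z, ⟨fun p => ?_,
    fun s f v hs hf => ?_⟩, fun j => by simp⟩
  · by_cases k : p = (4, 0)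
    · rw [k, Function.update_self]
      exact ⟨Q.bose_fld _ hZ, fun _ => hZ⟩
    · rw [Function.update_of_ne k]
      exact h1.1 p
  · rw [h1.2 s f v hs hf, Finset.sum_insert (by simp), Function.update_self,
      ← Finset.sum_filter_add_sum_filter_not F (·.1 = 4)]
    congr 1
    · exact e _ (UL Q hs H496.isLor_one 0) _ v (Ap.test_sim hs H496.isLor_one 0 hf)
    · exact Finset.sum_congr rfl fun p hp => by
        rw [Function.update_of_ne fun k => (Finset.mem_filter.1 hp).2 (by rw [k])]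

end

end Vale.Agent.P352X.ZZ.S0
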