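import Vale.Agent.P352Z.S0.Fm
import Vale.Agent.P352X.R.CH

/-!
# P352Z, block S0: the traceless tensor, charges on general surfaces
-/

set_option linter.all false

open MeasureTheory Filter Topology Set
open scoped ComplexConjugate ContDiff

namespace Vale.Agent.P352X.ZZ.S0

open Vale.Agent.P352 Vale.Agent.P352.GF Vale.Agent.P352.BW Vale.Agent.P352.H246
open Vale.Agent.P352.H496 Vale.Agent.P352.H755 Vale.Agent.P352.H15
open Vale.Agent.P352X.Fss Vale.Agent.P352Z Vale.Agent.P352X.Chx Vale.Agent.P352X.Ap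

noncomputable section

variable {D : Type*} [NormedAddCommGroup D] [InnerProductSpace ℂ D] {Q : Theory D}
  {A : (V → V) → D → D} {B : Fld D} {f g : Fn} {s r z : ℝ} {T T' : Ix → Ix → Fld D}
  {J J' : Ix → Fld D} {X : V → V} {k : ℕ} {Sj : ℕ → Ix → Ix → Fld D} {Vj : ℕ → Ix → Fld D}

/-! ### the tensor `improveJ` -/

lemma bas_symm (m n : Ix) : bas m (eta m) n = bas n (eta n) m := by
  by_cases h : m = n
  · rw [h]
  · simp [bas, h, Ne.symm h]

lemma eta_sq (m : Ix) : (eta m : ℂ) * eta m = 1 := by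
  by_cases h : m = o <;> simp [eta, h]

lemma sum_bas {M : Type*} [AddCommMonoid M] [Module ℂ M] (m : Ix) (t : ℝ) (y : Ix → M) :
    ∑ n, (bas m t n : ℂ) • y n = (t : ℂ) • y m := by
  rw [Finset.sum_eq_single m (fun n _ h => by simp [bas, h]) (by simp)]
  simp [bas]

lemma imp_fam (k : ℕ) (Sj : ℕ → Ix → Ix → Fld D) (Vj : ℕ → Ix → Fld D) (l : ℝ) :
    improveJ (fam2 k Sj l) (fam1 k Vj l) = fam2 k (fun j => improveJ (Sj j) (Vj j)) l := by
  funext m n f v
  simp only [improveJ, fam2, fam1, ex0, smul_add, smul_sub, Finset.sum_add_distrib,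
    Finset.sum_sub_distrib, Finset.smul_sum]
  congr 1
  · congr 1
    exact Finset.sum_congr rfl fun _ _ => smul_comm _ _ _
  · rw [Finset.sum_comm]
    exact Finset.sum_congr rfl fun _ _ => Finset.sum_congr rfl fun _ _ => smul_comm _ _ _

lemma Clo.bimp (h : Clo Q) (hT : ∀ m n, Q.bose (T m n)) (hJ : ∀ m, Q.bose (J m)) (m n : Ix) :
    Q.bose (improveJ T J m n) :=
  h.bcg (h.blin (bas m (eta m) n / 3 : ℂ) (h.blin (-(eta n / 3 : ℂ)) (hT m n) (h.bder n (hJ m)))
    (h.bsum Finset.univ (fun _ => 1) fun k => h.bder k (hJ k))) fun f v _ => by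
      simp only [improveJ, one_smul, neg_smul, sub_eq_add_neg]

lemma imp_cov {L : Ix → V} (hs : 0 < s) (hL : IsLor L) (a : V) (v : D) (hJ : ∀ m, Q.fld (J' m))
    (h1 : ∀ m n, T m n f (Q.U s L a v) =
      ∑ i, ∑ j, (L i m * L j n : ℂ) • Q.U s L a (T' i j (fun x => f (sim s L a x)) v))
    (h2 : ∀ m f, IsTest f → J m f (Q.U s L a v) =
      ∑ i, (s * L i m : ℂ) • Q.U s L a (J' i (fun x => f (sim s L a x)) v)) (hf : IsTest f)
    (m n : Ix) : improveJ T J m n f (Q.U s L a v) =
      ∑ i, ∑ j, (L i m * L j n : ℂ) • Q.U s L a (improveJ T' J' i j (fun x => f (sim s L a x)) v) := by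
  set Y : Ix → Ix → D := fun i j => UL Q hs hL a (J' i (fun x => pd j f (sim s L a x)) v) with hY
  have e1 : ∀ i l, UL Q hs hL a (J' i (pd l fun x => f (sim s L a x)) v) =
      ∑ j, ((s * L l j : ℝ) : ℂ) • Y i j := fun i l => by
    rw [pd_sim l a hs hL hf, Grp.fld_sum (hJ i) _ _ fun j => test_sim hs hL a (test_pd j hf),
      map_sum]
    simp only [map_smul, hY]
  have lt : ∀ m n, ∑ i, (eta i : ℂ) * L i m * L i n = bas m (eta m) n := fun m n => by
    rw [← lor_transpose hL]
    push_cast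
    rfl
  simp only [improveJ, h1, fun m n => h2 m _ (test_pd n hf)]
  simp only [← UL_apply hs hL, map_add, map_sub, map_smul, map_sum, e1, smul_add, smul_sub,
    Finset.sum_add_distrib, Finset.sum_sub_distrib, ← hY]
  congr 1
  · congr 1
    rw [Finset.smul_sum]
    refine Finset.sum_congr rfl fun i _ => ?_
    simp only [Finset.smul_sum, smul_smul]
    rw [Finset.sum_comm]
    simp only [← Finset.sum_smul]
    rw [Finset.sum_congr rfl fun j _ => congrArg (· • Y i j) (show ∑ l, (L i m * L l n : ℂ) *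
      (eta l / 3 * ((s * L l j : ℝ) : ℂ)) = (bas n (eta n) j : ℂ) * (L i m * s / 3) by
        rw [← lt, Finset.sum_mul]
        exact Finset.sum_congr rfl fun l _ => by push_cast; ring)]
    simp only [← smul_smul, sum_bas]
    simp only [smul_smul]
    congr 1
    ring
  · simp only [smul_smul, ← Finset.sum_smul]
    rw [Finset.sum_comm]
    congr 1
    · rw [← lt, Finset.sum_div]
      refine Finset.sum_congr rfl fun i _ => ?_
      rw [Finset.sum_eq_single i (fun n _ h => by simp [bas, h]) (by simp)]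
      simp only [bas, if_true]
      ring
    · simp only [Complex.ofReal_mul, hY]

lemma Clo.p2imp (h : Clo Q) (hT : P2 Q T) (hJ : P1 Q J) : P2 Q (improveJ T J) where
  bose := h.bimp hT.bose hJ.bose
  herm m n f v w hf := by
    simp only [improveJ, inner_add_left, inner_add_right, inner_sub_left, inner_sub_right,
      inner_smul_left, inner_smul_right, sum_inner, inner_sum, hT.herm m n f v w hf,
      fun m n => hJ.herm m _ v w (test_pd n hf), pd_bar _ hf, map_div₀, Complex.conj_ofReal,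
      map_ofNat]
  cov m n L a f v hL hf := imp_cov one_pos hL a v (fun m => Q.bose_fld _ (hJ.bose m))
    (fun m n => hT.cov m n L a f v hL hf)
    (fun m f hf => by simpa using hJ.cov m L a f v hL hf) hf m n
  perp m n f hf := by
    simp only [improveJ, inner_add_right, inner_sub_right, inner_smul_right, inner_sum,
      hT.perp m n f hf, fun m n => hJ.perp m _ (test_pd n hf), mul_zero, Finset.sum_const_zero,
      sub_zero, add_zero]

lemma imp_cons {n : Ix} {v : D} (h : ∑ m, T m n (pd m f) v = 0) (hf : IsTest f) :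
    ∑ m, improveJ T J m n (pd m f) v = 0 := by
  simp only [improveJ, Finset.sum_add_distrib, Finset.sum_sub_distrib, h, bas_symm _ n,
    div_eq_mul_inv, ← smul_smul, sum_bas, ← Finset.smul_sum, pd_pd n _ hf]
  abel

lemma imp_tr {v : D} (h : GF.tr T f v = -∑ m, J m (pd m f) v) : GF.tr (improveJ T J) f v = 0 := by
  simp only [GF.tr] at h
  simp only [GF.tr, improveJ, smul_add, smul_sub, Finset.sum_add_distrib, Finset.sum_sub_distrib, h,
    bas, if_true, smul_smul, div_eq_mul_inv, ← mul_assoc, eta_sq, one_mul, ← Finset.smul_sum,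
    Finset.sum_const, Finset.card_univ, Fintype.card_fin]
  module

lemma imp_bian (h : ∀ m n f v, IsTest f → T m n f v = T n m f v) (l m n : Ix) (hf : IsTest f)
    (v : D) : cu (improveJ T J) l m n f v + cu (improveJ T J) m n l f v +
      cu (improveJ T J) n l m f v = 0 := by
  simp only [cu, improveJ, h n m _ v (test_pd l hf), h l n _ v (test_pd m hf),
    h m l _ v (test_pd n hf), bas_symm n m, bas_symm l n, bas_symm m l, pd_pd n l hf,
    pd_pd l m hf, pd_pd m n hf]
  module

/-- the components `N ^ j T''` -/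
abbrev Tj (Sj : ℕ → Ix → Ix → Fld D) (Vj : ℕ → Ix → Fld D) (j : ℕ) : Ix → Ix → Fld D :=
  improveJ (Sj j) (Vj j)

/-- the family `T''_l` -/
abbrev Tl (k : ℕ) (Sj : ℕ → Ix → Ix → Fld D) (Vj : ℕ → Ix → Fld D) (l : ℝ) : Ix → Ix → Fld D :=
  improveJ (fam2 k Sj l) (fam1 k Vj l)

namespace Out

variable (h : Out Q A k Sj Vj)
include h

lemma p2j (j : ℕ) : P2 Q (Tj Sj Vj j) := h.clo.p2imp (h.fam.p2 j) (h.fam.p1 j)

lemma p2l (l : ℝ) : P2 Q (Tl k Sj Vj l) := h.clo.p2imp (h.fam.p2l l) (h.fam.p1l l)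

lemma top (j : ℕ) (m n : Ix) (v : D) (hj : k < j) (hf : IsTest f) : Tj Sj Vj j m n f v = 0 := by
  simp only [improveJ, h.fam.top2 j m n f v hj hf,
    fun m n => h.fam.top1 j m _ v hj (test_pd n hf), smul_zero, Finset.sum_const_zero, sub_zero,
    add_zero]

lemma covl (l : ℝ) (m n : Ix) {L : Ix → V} (a : V) (v : D) (hs : 0 < s) (hL : IsLor L)
    (hf : IsTest f) : Tl k Sj Vj l m n f (Q.U s L a v) = ∑ i, ∑ j, (L i m * L j n : ℂ) •
      Q.U s L a (Tl k Sj Vj (l + Real.log s) i j (fun x => f (sim s L a x)) v) :=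
  imp_cov hs hL a v (h.svl _).fJ (fun m n => h.fam.cov2 l m n s L a f v hs hL hf)
    (fun m f hf => h.fam.cov1 l m s L a f v hs hL hf) hf m n

lemma consl (l : ℝ) (n : Ix) (v : D) (hf : IsTest f) : ∑ m, Tl k Sj Vj l m n (pd m f) v = 0 :=
  imp_cons ((h.svl l).conserved n f v hf) hf

lemma trl (l : ℝ) (v : D) (hf : IsTest f) : GF.tr (Tl k Sj Vj l) f v = 0 :=
  imp_tr ((h.svl l).div f v hf)

lemma bianl (l : ℝ) (i m n : Ix) (v : D) (hf : IsTest f) : cu (Tl k Sj Vj l) i m n f v +
    cu (Tl k Sj Vj l) m n i f v + cu (Tl k Sj Vj l) n i m f v = 0 :=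
  imp_bian (h.svl l).symm i m n hf v

lemma consj (j : ℕ) (n : Ix) (v : D) (hf : IsTest f) : ∑ m, Tj Sj Vj j m n (pd m f) v = 0 :=
  imp_cons (h.fam.conserved j n f v hf) hf

lemma trj (j : ℕ) (v : D) (hf : IsTest f) : GF.tr (Tj Sj Vj j) f v = 0 :=
  imp_tr (h.fam.div j f v hf)

lemma bianj (j : ℕ) (i m n : Ix) (v : D) (hf : IsTest f) : cu (Tj Sj Vj j) i m n f v +
    cu (Tj Sj Vj j) m n i f v + cu (Tj Sj Vj j) n i m f v = 0 :=
  imp_bian (h.fam.symm j) i m n hf v

end Out

/-! ### charges on general surfaces -/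

lemma surf {Φ : (Ix → V → ℝ) → D → D} {E : D → D} {K : Set V} {χ Ξ : V → ℝ} {y : ℂ} (v w : D)
    (hadd : ∀ u u', (∀ m, Tst (u m)) → (∀ m, Tst (u' m)) → ∀ x,
      Φ (fun m x => u m x + u' m x) x = Φ u x + Φ u' x)
    (hkil : ∀ ψ, Tst ψ → ∀ x, Φ (fun m => dr m ψ) x = 0)
    (hlo : ∀ u, (∀ m, Tst (u m)) → (∀ m, ∀ z ∈ Jc K, ∀ᶠ x in 𝓝 z, u m x = 0) → ∀ x,
      Φ u (E x) = E (Φ u x)) (hE : ∀ x y, E (x + y) = E x + E y)
    (hlim : ∀ F : ℝ → V → ℝ, IsCutoff (fun R x => (F R x : ℂ)) → Tendsto (fun R => inner ℂ w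
      (Φ (fun m x => if m = o then F R x else 0) (E v) -
        E (Φ (fun m x => if m = o then F R x else 0) v))) atTop (𝓝 y))
    (hK : IsCompact K) (hc : Chg K χ Ξ) : inner ℂ w (Φ (fun m x => χ x * dr m Ξ x) (E v) -
      E (Φ (fun m x => χ x * dr m Ξ x) v)) = y := by
  obtain ⟨hχ, hΞ, ⟨R0, hR0⟩, hloc⟩ := hc
  obtain ⟨s, ss, s0, s1, -, -⟩ := ex_step (a := -1) (b := 1) (by norm_num)
  have l0 : ∀ t < -1, ∀ᶠ u in 𝓝 t, s u = 0 := fun t ht =>
    (eventually_lt_nhds ht).mono fun u hu => s0 u hu.le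
  have l1 : ∀ t > 1, ∀ᶠ u in 𝓝 t, s u = 1 := fun t ht =>
    (eventually_gt_nhds ht).mono fun u hu => s1 u hu.le
  have sd : Differentiable ℝ s := ss.differentiable (by simp)
  have a0 : ∀ t ∉ Icc (-1 : ℝ) 1, deriv s t = 0 := fun t ht => by
    rcases lt_or_ge t (-1) with h | h
    · rw [Filter.EventuallyEq.deriv_eq (l0 t h), deriv_const]
    · rw [Filter.EventuallyEq.deriv_eq (l1 t (not_le.1 fun k => ht ⟨h, k⟩)), deriv_const]
  have ha : Tst (deriv s) := cs_of (ss.iterate_deriv 1) isCompact_Icc a0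
  have ia : ∫ t, deriv s t = 1 := by
    rw [← setIntegral_eq_integral_of_forall_compl_eq_zero a0, integral_Icc_eq_integral_Ioc,
      ← intervalIntegral.integral_of_le (by norm_num), intervalIntegral.integral_deriv_eq_sub
      (fun x _ => sd x) (ha.1.continuous.intervalIntegrable _ _), s0 _ le_rfl, s1 _ le_rfl,
      sub_zero]
  obtain ⟨c, hc, -, c1, -⟩ := ex_chi (isCompact_closedBall (0 : V) 1) isOpen_univ (subset_univ _)
  have cut : IsCutoff fun R x => ((deriv s (x o) * c (sp R x) : ℝ) : ℂ) :=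
    ⟨deriv s, c, ha.2, hc.2, ia, c1 0 (by simp), fun R hR =>
      ⟨tst_sw (tst_cut ha hc hR), fun x => Complex.ofReal_mul _ _⟩⟩
  obtain ⟨ρ, hρ⟩ := jc_bd hK (|R0| + 2)
  obtain ⟨κ, hκ, -, κ1, -⟩ := ex_chi (isCompact_closedBall (0 : V) ρ) isOpen_univ (subset_univ _)
  have S0 : ContDiff ℝ ∞ fun x : V => s (x o) := ss.comp (contDiff_apply ℝ ℝ o)
  have hψ : Tst fun x : V => (s (x o) - Ξ x) * κ x := cs_mul_l (S0.sub hΞ) hκ
  refine tendsto_nhds_unique (tendsto_const_nhds.congr' ?_) (hlim _ cut)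
  filter_upwards [eventually_ge_atTop (|ρ| + 1)] with R hR
  have Rp : 0 < R := by linarith [abs_nonneg ρ]
  set ψ : V → ℝ := fun x => (s (x o) - Ξ x) * κ x with hψd
  set u0 : Ix → V → ℝ := fun m x => if m = o then deriv s (x o) * c (sp R x) else 0 with hu0
  set u1 : Ix → V → ℝ := fun m x => χ x * dr m Ξ x with hu1
  set u2 : Ix → V → ℝ := fun m x => u0 m x - u1 m x - dr m ψ x with hu2
  have t0 : ∀ m, Tst (u0 m) := fun m => by
    by_cases h : m = o <;> simp only [hu0, h, if_true, if_false]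
    exacts [tst_cut ha hc Rp, cs_zero]
  have t1 : ∀ m, Tst (u1 m) := fun m => cs_mul_r hχ (smooth_dr hΞ m)
  have t2 : ∀ m, Tst (u2 m) := fun m => cs_sub (cs_sub (t0 m) (t1 m)) (Chx.tst_dr hψ m)
  have e2 : ∀ y, Φ u0 y = Φ u1 y + Φ u2 y := fun y => by
    have k := hadd _ _ (fun m => cs_add (t1 m) (t2 m)) (Chx.tst_dr hψ) y
    rw [hkil ψ hψ, add_zero, hadd _ _ t1 t2] at k
    rw [← k]
    congr 1
    funext m x
    simp only [hu2]
    ring
  have e3 : ∀ m, ∀ z ∈ Jc K, ∀ᶠ x in 𝓝 z, u2 m x = 0 := fun m z hz => by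
    have ct : Tendsto (fun x : V => x o) (𝓝 z) (𝓝 (z o)) := (continuous_apply o).tendsto z
    have far : ∀ r : ℝ, (∀ᶠ t in 𝓝 (z o), s t = r) → (∀ᶠ x in 𝓝 z, Ξ x = r) →
        ∀ᶠ x in 𝓝 z, u2 m x = 0 := fun r h1 h2 => by
      have h3 : ∀ᶠ x in 𝓝 z, ψ x = 0 := by
        filter_upwards [ct.eventually h1, h2] with x k1 k2
        simp [hψd, k1, k2]
      filter_upwards [dr_congr h2 m, dr_congr h3 m, ct.eventually h1.eventually_nhds] with
        x k1 k2 k3
      simp [hu2, hu1, hu0, k1, k2, dr_const, Filter.EventuallyEq.deriv_eq k3]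
    rcases le_or_gt (|z o|) (|R0| + 2) with h | h
    · have zb := hρ z hz h
      have h1 : ∀ᶠ x in 𝓝 z, ψ x = s (x o) - Ξ x :=
        (κ1 z (mem_closedBall_zero_iff.2 zb)).mono fun x hx => by simp [hψd, hx]
      have h2 : ∀ᶠ x in 𝓝 z, c (sp R x) = 1 := by
        refine ((sp_smooth R).continuous.tendsto z).eventually (c1 _ (mem_closedBall_zero_iff.2
          ((pi_norm_le_iff_of_nonneg zero_le_one).2 fun n => ?_)))
        have := (norm_le_pi_norm z n).trans zb
        by_cases k : n = o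
        · simp [Chx.sp, k]
        · simp only [Chx.sp, k, if_false, norm_div, Real.norm_of_nonneg Rp.le]
          rw [div_le_one Rp]
          linarith [le_abs_self ρ]
      have h3 : ∀ᶠ x in 𝓝 z, u1 m x = dr m Ξ x := by
        rcases hloc z hz with k | k
        · exact k.mono fun x hx => by simp [hu1, hx]
        · exact (dr_congr k m).mono fun x hx => by simp [hu1, hx, dr_const]
      filter_upwards [dr_congr h1 m, h2, h3] with x k1 k2 k3
      rw [dr_sub (S0.differentiable (by simp)) (hΞ.differentiable (by simp)), dr_time] at k1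
      simp only [hu2, hu0, k1, k2, k3]
      split_ifs <;> ring
    · rcases lt_abs.1 h with k | k
      · exact far 1 (l1 _ (by linarith [abs_nonneg R0])) ((hR0 z hz).1 (by
          linarith [le_abs_self R0]))
      · exact far 0 (l0 _ (by linarith [abs_nonneg R0])) ((hR0 z hz).2 (by
          linarith [le_abs_self R0]))
  simp only [e2, hE, hlo u2 t2 e3]
  congr 1
  abel

lemma sim_sm (hX : IsSim r X) (n : Ix) : ContDiff ℝ ∞ fun x => X x n := by
  obtain ⟨c, w, -, h⟩ := hX
  simp only [h]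
  fun_prop

lemma tst_uXr (hX : IsSim r X) {u : V → ℝ} (hu : Tst u) (n : Ix) :
    Tst fun x => u x * (eta n * X x n) := cs_mul_r hu (contDiff_const.mul (sim_sm hX n))

lemma test_uXr (hX : IsSim r X) {u : Ix → V → ℝ} (hu : ∀ m, Tst (u m)) (m n : Ix) :
    IsTest (uX u X m n) := tst_sw (tst_uXr hX (hu m) n)

lemma pd_uX {c : V} {w : Ix → V} (h : ∀ z n, X z n = c n + r * z n + ∑ m, z m * w m n)
    {u : V → ℝ} (hu : Tst u) (m n : Ix) (x : V) :
    pd m (fun x => ((u x * (eta n * X x n) : ℝ) : ℂ)) x =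
      ((dr m u x * (eta n * X x n) + u x * (eta n * (bas m r n + w m n)) : ℝ) : ℂ) := by
  have hs : ContDiff ℝ ∞ fun x => eta n * X x n := by
    simp only [h]
    fun_prop
  have dX : dr m (fun x => eta n * X x n) x = eta n * (bas m r n + w m n) := by
    have e : (fun t => eta n * X (x + bas m t) n) =
        fun t => eta n * X x n + t * (eta n * (bas m r n + w m n)) := by
      funext t
      by_cases k : n = m <;> simp [h, bas, add_mul, Finset.sum_add_distrib, k] <;> ring
    have : HasDerivAt (fun t => eta n * X (x + bas m t) n) (eta n * (bas m r n + w m n)) 0 := by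
      rw [e]
      simpa using ((hasDerivAt_id (0 : ℝ)).mul_const (eta n * (bas m r n + w m n))).const_add
        (eta n * X x n)
    exact this.deriv
  rw [pd_cx ((hu.1.mul hs).differentiable (by simp) x), dr_mul (hu.1.differentiable (by simp))
    (hs.differentiable (by simp)), dX]

lemma loc_of {T0 : Fld D} (hC : Q.bose T0) {K : Set V} (hg : IsTest g) (h : ∀ z ∈ Jc K, ∀ᶠ x in 𝓝 z, g x = 0)
    (hB : Q.fld B) (hf : IsTest f) (hK : tsupport f ⊆ K) (v : D) :
    T0 g (B f v) = B f (T0 g v) :=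
  Q.loc _ _ _ _ v hC hB hg hf fun x hx y hy => by
    by_contra k
    exact notMem_tsupport_iff_eventuallyEq.2 (h x ⟨y, hK hy, not_lt.1 k⟩) hx

/-- the flux `T^{mn}(u_m X_n) - r J^m(u_m)` -/
def flx (T : Ix → Ix → Fld D) (J : Ix → Fld D) (r : ℝ) (X : V → V) (u : Ix → V → ℝ) (v : D) : D :=
  TT T (uX u X) v - (r : ℂ) • ∑ m, J m (fun x => (u m x : ℂ)) v

theorem SV.ch (h : SV z Q T J A) {K : Set V} {χ Ξ : V → ℝ} (v w : D) (hK : IsCompact K)
    (hc : Chg K χ Ξ) (hX : IsSim r X) (hB : Q.fld B) (hf : IsTest f) (hs : tsupport f ⊆ K) :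
    inner ℂ w (flx T J r X (fun m x => χ x * dr m Ξ x) (B f v) -
      B f (flx T J r X (fun m x => χ x * dr m Ξ x) v)) =
      z * inner ℂ w (A X (B f v) - B f (A X v)) := by
  refine surf v w (fun u u' hu hu' y => ?_) (fun ψ hψ y => ?_) (fun u hu k y => ?_)
    (fld_vadd hB hf) (fun F hF => ?_) hK hc
  · have e1 : ∀ m n, T m n (uX (fun m x => u m x + u' m x) X m n) y =
        T m n (uX u X m n) y + T m n (uX u' X m n) y := fun m n => by
      have k := Q.lin (T m n) _ _ 1 y (h.fT m n) (test_uXr hX hu m n) (test_uXr hX hu' m n)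
      rw [one_smul] at k
      rw [← k]
      congr 1
      funext x
      simp only [uX]
      push_cast
      ring
    have e2 : ∀ m, J m (fun x => ((u m x + u' m x : ℝ) : ℂ)) y =
        J m (fun x => (u m x : ℂ)) y + J m (fun x => (u' m x : ℂ)) y := fun m => by
      simpa using Q.lin (J m) _ _ 1 y (h.fJ m) (tst_sw (hu m)) (tst_sw (hu' m))
    simp only [flx, TT, e1, e2, Finset.sum_add_distrib, smul_add]
    abel
  · have tu := test_uXr hX (Chx.tst_dr hψ)
    have tg := fun n => tst_uXr hX hψ n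
    obtain ⟨c, wl, hw, hX⟩ := hX
    have e : ∀ m n, T m n (pd m fun x => ((ψ x * (eta n * X x n) : ℝ) : ℂ)) y =
        T m n (uX (fun m => dr m ψ) X m n) y + ((bas m r n : ℂ) • (eta n : ℂ) •
          T m n (fun x => (ψ x : ℂ)) y + ((eta n * wl m n : ℝ) : ℂ) •
            T m n (fun x => (ψ x : ℂ)) y) := fun m n => by
      rw [smul_smul, ← add_smul, ← Q.lin (T m n) _ _ _ y (h.fT m n) (tu m n) (tst_sw hψ)]
      congr 1
      funext x
      rw [pd_uX hX hψ]
      simp only [uX]
      push_cast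
      ring
    have z0 : ∑ m, ∑ n, ((eta n * wl m n : ℝ) : ℂ) • T m n (fun x => (ψ x : ℂ)) y = 0 := by
      have : ∑ m, ∑ n, ((eta n * wl m n : ℝ) : ℂ) • T m n (fun x => (ψ x : ℂ)) y =
          -∑ m, ∑ n, ((eta n * wl m n : ℝ) : ℂ) • T m n (fun x => (ψ x : ℂ)) y := by
        conv_rhs => rw [Finset.sum_comm]
        simp only [← Finset.sum_neg_distrib, ← neg_smul]
        refine Finset.sum_congr rfl fun m _ => Finset.sum_congr rfl fun n _ => ?_
        rw [hw m n, h.symm n m _ y (tst_sw hψ), Complex.ofReal_neg]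
      rw [eq_neg_iff_add_eq_zero, ← two_smul ℂ] at this
      exact (smul_eq_zero.1 this).resolve_left two_ne_zero
    have c0 : ∑ m, ∑ n, T m n (pd m fun x => ((ψ x * (eta n * X x n) : ℝ) : ℂ)) y = 0 := by
      rw [Finset.sum_comm]
      exact Finset.sum_eq_zero fun n _ => h.conserved n _ y (tst_sw (tg n))
    have d := h.div _ y (tst_sw hψ)
    have e4 : ∀ m, pd m (fun x => (ψ x : ℂ)) = fun x => (dr m ψ x : ℂ) := fun m =>
      funext fun x => pd_cx (hψ.1.differentiable (by simp) x) m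
    simp only [e, Finset.sum_add_distrib, z0, add_zero, sum_bas, ← Finset.smul_sum] at c0
    rw [GF.tr] at d
    rw [d, smul_neg, ← sub_eq_add_neg] at c0
    simp only [e4] at c0
    exact c0
  · simp only [flx, TT, ← Fss.fl_apply hB hf, map_sub, map_sum, map_smul]
    simp only [Fss.fl_apply]
    congr 1
    · exact Finset.sum_congr rfl fun m _ => Finset.sum_congr rfl fun n _ =>
        loc_of (h.bT m n) (test_uXr hX hu m n) (fun z hz => (k m z hz).mono fun x hx => by
          simp [uX, hx]) hB hf hs y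
    · congr 1
      exact Finset.sum_congr rfl fun m _ => loc_of (h.bJ m) (tst_sw (hu m))
        (fun z hz => (k m z hz).mono fun x hx => by simp [hx]) hB hf hs y
  · refine (h.sch _ r X B f v w hF hX hB hf (hK.of_isClosed_subset (isClosed_tsupport f) hs)).congr
      fun R => ?_
    have e : ∀ y, curV T J r X (fun x => (F R x : ℂ)) y =
        flx T J r X (fun m x => if m = o then F R x else 0) y := fun y => by
      have e1 : TT T (uX (fun m x => if m = o then F R x else 0) X) y =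
          ND.cur T X (fun x => (F R x : ℂ)) y := by
        rw [TT, Finset.sum_eq_single o (fun m _ k => Finset.sum_eq_zero fun n _ => ?_) (by simp)]
        · refine Finset.sum_congr rfl fun n _ => ?_
          congr 1
          funext x
          simp only [uX, if_true]
          push_cast
          ring
        · rw [← lin0 (h.fT m n) y]
          congr 1
          funext x
          simp [uX, k]
      rw [flx, e1, Finset.sum_eq_single o (fun m _ k => by simpa [k] using lin0 (h.fJ m) y)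
        (by simp), curV]
      simp only [if_true]
    simp only [e]

/-- the charges of the tensor `improveJ T J`: translations and dilations -/
theorem SV.chT (h : SV z Q T J A) {K : Set V} {χ Ξ : V → ℝ} (c : V) (r : ℝ) (v w : D)
    (hK : IsCompact K) (hc : Chg K χ Ξ) (hB : Q.fld B) (hf : IsTest f) (hs : tsupport f ⊆ K) :
    inner ℂ w (TT (improveJ T J) (dens χ Ξ fun x => c + r • x) (B f v) -
      B f (TT (improveJ T J) (dens χ Ξ fun x => c + r • x) v)) =
      z * inner ℂ w (A (fun x => c + r • x) (B f v) - B f (A (fun x => c + r • x) v)) := by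
  set X : V → V := fun x => c + r • x with hXd
  have h0 : ∀ z n, X z n = c n + r * z n + ∑ m, z m * (0 : Ix → V) m n := fun z n => by simp [hXd]
  have hX : IsSim r X := ⟨c, 0, fun _ _ => by simp, h0⟩
  set u : Ix → V → ℝ := fun m x => χ x * dr m Ξ x with hu
  have t1 : ∀ m, Tst (u m) := fun m => cs_mul_r hc.1 (smooth_dr hc.2.1 m)
  set g : Ix → V → ℝ := fun k x => ∑ m, (dr k (u m) x - dr m (u k) x) * X x m with hg
  have tg : ∀ k, Tst (g k) := fun k => cs_sum fun m _ =>
    cs_mul_r (cs_sub (Chx.tst_dr (t1 m) k) (Chx.tst_dr (t1 k) m)) (sim_sm hX m)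
  have tu := fun m n k => test_pd k (test_uXr hX t1 m n)
  have e : ∀ y, TT (improveJ T J) (dens χ Ξ X) y =
      flx T J r X u y + (1 / 3 : ℂ) • ∑ k, J k (fun x => (g k x : ℂ)) y := fun y => by
    have e1 : ∀ k, ∑ m, (eta m / 3 : ℂ) • J k (pd k (uX u X m m)) y -
        ∑ n, (eta n / 3 : ℂ) • J k (pd n (uX u X k n)) y =
        (1 / 3 : ℂ) • J k (fun x => (g k x : ℂ)) y - (r : ℂ) • J k (fun x => (u k x : ℂ)) y :=
      fun k => by
        rw [← Grp.fld_sum (h.fJ k) _ _ fun m => tu m m k, ← Grp.fld_sum (h.fJ k) _ _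
          fun n => tu k n n, sub_eq_add_neg, sub_eq_add_neg, ← neg_smul, ← neg_one_smul ℂ (J k _ y),
          ← Q.lin _ _ _ _ y (h.fJ k) (Grp.test_sum _ _ fun m => tu m m k)
            (Grp.test_sum _ _ fun n => tu k n n), ← lin2 (h.fJ k) (tst_sw (tg k)) (tst_sw (t1 k))]
        congr 1
        funext x
        have p : ∀ m n i, pd i (uX u X m n) x = _ := fun m n i => pd_uX h0 (t1 m) i n x
        simp only [p, hg]
        fin_cases k <;> simp [Fin.sum_univ_four, bas, eta, o] <;> ring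
    show TT (improveJ T J) (uX u X) y = _
    simp only [TT, flx, improveJ, Finset.sum_add_distrib, Finset.sum_sub_distrib, div_eq_mul_inv,
      ← smul_smul, sum_bas]
    simp only [smul_smul, ← div_eq_mul_inv, Finset.smul_sum]
    rw [Finset.sum_comm (f := fun m k => (eta m / 3 : ℂ) • J k (pd k (uX u X m m)) y),
      sub_add_eq_add_sub, add_sub_assoc, ← Finset.sum_sub_distrib]
    simp only [e1, Finset.sum_sub_distrib]
    abel
  have g0 : ∀ k, ∀ z ∈ Jc K, ∀ᶠ x in 𝓝 z, (g k x : ℂ) = 0 := fun k z hz => by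
    have : ∀ m, ∀ᶠ x in 𝓝 z, dr k (u m) x = dr m (u k) x := fun m => by
      rcases hc.2.2.2 z hz with q | q
      · have q' : ∀ i, ∀ᶠ x in 𝓝 z, u i x = dr i Ξ x := fun i =>
          q.mono fun x hx => by simp [hu, hx]
        filter_upwards [dr_congr (q' m) k, dr_congr (q' k) m] with x k1 k2
        rw [k1, k2]
        have d := hc.2.1.differentiable (by simp)
        have c1 := dv_comm (f := fun x => (Ξ x : ℂ)) (Complex.ofRealCLM.contDiff.comp hc.2.1)
          (bas k 1) (bas m 1) x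
        have e4 : ∀ m, pd m (fun x => (Ξ x : ℂ)) = fun x => (dr m Ξ x : ℂ) := fun m =>
          funext fun x => pd_cx (d x) m
        simp only [dv_bas, e4, fun i => pd_cx ((smooth_dr hc.2.1 i).differentiable (by simp) x)] at c1
        exact_mod_cast c1
      · have q' : ∀ i, ∀ᶠ x in 𝓝 z, u i x = 0 := fun i =>
          (dr_congr q i).mono fun x hx => by simp [hu, hx, dr_const]
        filter_upwards [dr_congr (q' m) k, dr_congr (q' k) m] with x k1 k2
        rw [k1, k2, dr_const, dr_const]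
    filter_upwards [eventually_all.2 this] with x hx
    simp [hg, hx]
  rw [← h.ch v w hK hc hX hB hf hs]
  simp only [e, ← Fss.fl_apply hB hf, map_add, map_smul, map_sum]
  simp only [Fss.fl_apply, fun k => loc_of (h.bJ k) (tst_sw (tg k)) (g0 k) hB hf hs v]
  congr 1
  abel

/-! ### the action of the generators -/

theorem act_gen (R : Rep Q A) {Y : ℕ → Fld D} (hY : ∀ j, Q.fld (Y j)) (κ l : ℝ)
    (h0 : Q.fld fun f v => ex0 k l fun j => Y j f v) (c : V) (r : ℝ) (hf : IsTest f) (v : D)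
    (top : Y (k + 1) f v = 0) (law : ∀ t a, (ex0 k l fun j => Y j f (Q.U (Real.exp t) GF.one a v)) =
      (Real.exp (κ * t) : ℂ) • Q.U (Real.exp t) GF.one a
        (ex0 k (l + t) fun j => Y j (fun x => f (sim (Real.exp t) GF.one a x)) v)) :
    A (fun x => c + r • x) (ex0 k l fun j => Y j f v) =
      (ex0 k l fun j => Y j f (A (fun x => c + r • x) v)) + Complex.I •
        (((κ * r : ℝ) : ℂ) • (ex0 k l fun j => Y j f v) + (r : ℂ) • (ex0 k l fun j => Y (j + 1) f v) +
          ex0 k l fun j => Y j (H746.vf (fun x => c + r • x) f) v) := by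
  have hX : ∀ z n, (fun x => c + r • x) z n = c n + r * z n + ∑ m, z m * (0 : Ix → V) m n :=
    fun z n => by simp
  have d1 : HasDerivAt (fun e : ℝ => e * r) r 0 := by simpa using (hasDerivAt_id (0 : ℝ)).mul_const r
  have K : H746.Crv (fun e => Real.exp (e * r)) (fun _ => GF.one) (fun e => e • c) 0 r c :=
    ⟨by simp, rfl, by simp, fun e => Real.exp_pos _, fun _ => H496.isLor_one, by simpa using d1.exp,
      fun m n => hasDerivAt_const _ _, fun n => by
        simpa using (hasDerivAt_id (0 : ℝ)).mul_const (c n)⟩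
  obtain ⟨F, rfl⟩ := exists_fl hf
  have h1 := H746.comm_gen R K hX (B := fun j : Fin (k + 1) => Y j) (fun j => hY j) h0
    (C := fun e j => Real.exp (κ * (e * r)) * ((l + e * r) ^ (j : ℕ) / (j : ℕ).factorial))
    (C' := fun j => κ * r * (l ^ (j : ℕ) / (j : ℕ).factorial) +
      r * ((j : ℕ) * l ^ ((j : ℕ) - 1) / (j : ℕ).factorial)) (fun j => by
      refine ((d1.const_mul κ).exp.mul (((d1.const_add l).pow (j : ℕ)).div_const
        ((j : ℕ).factorial : ℝ))).congr_deriv ?_
      simp only [zero_mul, mul_zero, Real.exp_zero, one_mul, add_zero, Pi.pow_apply]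
      ring) F v fun e => by
      rw [law, ex0, ← UL_apply (Real.exp_pos _) H496.isLor_one, map_sum, Finset.smul_sum,
        Finset.sum_range]
      refine Finset.sum_congr rfl fun j _ => ?_
      rw [map_smul, smul_smul, fl_sim _ (Real.exp_pos _) H496.isLor_one, Complex.ofReal_mul]
      rfl
  rw [H746.fl_vfS hX, H746.fld_smul h0 hf] at h1
  simp only [zero_mul, mul_zero, Real.exp_zero, one_mul, add_zero, Finset.sum_add_distrib,
    Complex.ofReal_add, add_smul] at h1
  have e1 : ∀ y : ℕ → D, ∑ j : Fin (k + 1), ((l ^ (j : ℕ) / (j : ℕ).factorial : ℝ) : ℂ) • y j =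
      ex0 k l y := fun y => by rw [ex0, Finset.sum_range]
  have e2 : ∑ j : Fin (k + 1), ((κ * r * (l ^ (j : ℕ) / (j : ℕ).factorial) : ℝ) : ℂ) •
      Y j (fl F) v = ((κ * r : ℝ) : ℂ) • ex0 k l fun j => Y j (fl F) v := by
    rw [← e1, Finset.smul_sum]
    simp only [smul_smul, Complex.ofReal_mul]
  have e3 : ∑ j : Fin (k + 1), ((r * ((j : ℕ) * l ^ ((j : ℕ) - 1) / (j : ℕ).factorial) : ℝ) : ℂ) •
      Y j (fl F) v = (r : ℂ) • ex0 k l fun j => Y (j + 1) (fl F) v := by
    rw [← Finset.sum_range fun j => ((r * ((j : ℕ) * l ^ (j - 1) / j.factorial) : ℝ) : ℂ) •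
      Y j (fl F) v, ex0, Finset.sum_range_succ', Finset.sum_range_succ, top, smul_zero, add_zero,
      Finset.smul_sum]
    simp only [Nat.cast_zero, zero_mul, zero_div, mul_zero, Complex.ofReal_zero, zero_smul,
      add_zero, smul_smul, ← Complex.ofReal_mul]
    refine Finset.sum_congr rfl fun j _ => ?_
    congr 3
    rw [Nat.factorial_succ, Nat.add_sub_cancel]
    push_cast
    field_simp
  rw [e2, e3, e1 fun j => Y j (fl F) v, e1 fun j => Y j _ v] at h1
  have h2 := congrArg (fun u => (-Complex.I) • u) h1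
  have e4 : -Complex.I * Complex.I = 1 := by rw [neg_mul, Complex.I_mul_I, neg_neg]
  simp only [smul_add, smul_smul (-Complex.I) Complex.I, e4, one_smul] at h2
  rw [h2]
  module

lemma one2 (y : Ix → Ix → D) (m n : Ix) :
    ∑ i, ∑ j, (GF.one i m * GF.one j n : ℂ) • y i j = y m n := by
  simp only [← smul_smul, ← Finset.smul_sum, H746.sum_one']

namespace Out

variable (h : Out Q A k Sj Vj)
include h

/-- the action of translations and dilations on `T''_l` -/
theorem actT (l : ℝ) (m n : Ix) (c : V) (r : ℝ) (hf : IsTest f) (v : D) :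
    A (fun x => c + r • x) (Tl k Sj Vj l m n f v) = Tl k Sj Vj l m n f (A (fun x => c + r • x) v) +
      Complex.I • ((r : ℂ) • fam2 k (fun j => Tj Sj Vj (j + 1)) l m n f v +
        Tl k Sj Vj l m n (H746.vf (fun x => c + r • x) f) v) := by
  have p := (h.p2l l).bose m n
  have q := fun t a => h.covl l m n a v (Real.exp_pos t) H496.isLor_one hf
  simp only [Tl, imp_fam, one2, Real.log_exp] at p q ⊢
  simpa [fam2, fam1] using act_gen h.rep (fun j => Q.bose_fld _ ((h.p2j j).bose m n)) 0 l (Q.bose_fld _ p) c r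
    hf v (h.top _ m n v k.lt_succ_self hf) fun t a => by simpa [fam2, fam1] using q t a

/-- the action of translations and dilations on `S_l` -/
theorem actS (l : ℝ) (m n : Ix) (c : V) (r : ℝ) (hf : IsTest f) (v : D) :
    A (fun x => c + r • x) (fam2 k Sj l m n f v) = fam2 k Sj l m n f (A (fun x => c + r • x) v) +
      Complex.I • ((r : ℂ) • fam2 k (fun j => Sj (j + 1)) l m n f v +
        fam2 k Sj l m n (H746.vf (fun x => c + r • x) f) v) := by
  have q := fun t a => h.fam.cov2 l m n _ _ a f v (Real.exp_pos t) H496.isLor_one hf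
  simp only [one2, Real.log_exp] at q
  simpa [fam2, fam1] using act_gen h.rep (fun j => Q.bose_fld _ ((h.fam.p2 j).bose m n)) 0 l ((h.svl l).fT m n)
    c r hf v (h.fam.top2 _ m n f v k.lt_succ_self hf) fun t a => by simpa [fam2, fam1] using q t a

/-- the action of translations and dilations on `V_l` -/
theorem actV (l : ℝ) (m : Ix) (c : V) (r : ℝ) (hf : IsTest f) (v : D) :
    A (fun x => c + r • x) (fam1 k Vj l m f v) = fam1 k Vj l m f (A (fun x => c + r • x) v) +
      Complex.I • ((r : ℂ) • fam1 k Vj l m f v + (r : ℂ) • fam1 k (fun j => Vj (j + 1)) l m f v +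
        fam1 k Vj l m (H746.vf (fun x => c + r • x) f) v) := by
  have q := fun t a => h.fam.cov1 l m _ _ a f v (Real.exp_pos t) H496.isLor_one hf
  simp only [← smul_smul, ← Finset.smul_sum, H746.sum_one', Real.log_exp] at q
  simpa [fam2, fam1] using act_gen h.rep (fun j => Q.bose_fld _ ((h.fam.p1 j).bose m)) 1 l ((h.svl l).fJ m)
    c r hf v (h.fam.top1 _ m f v k.lt_succ_self hf) fun t a => by simpa [fam2, fam1] using q t a

/-- **the Ward identity** of translations and dilations, for `T''_l'` acting on `T''_l` -/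
theorem ward (l' l : ℝ) (m n : Ix) (c : V) (r : ℝ) {K : Set V} {χ Ξ : V → ℝ} (hK : IsCompact K)
    (hc : Chg K χ Ξ) (hf : IsTest f) (hs : tsupport f ⊆ K) (v : D) :
    TT (Tl k Sj Vj l') (dens χ Ξ fun x => c + r • x) (Tl k Sj Vj l m n f v) -
      Tl k Sj Vj l m n f (TT (Tl k Sj Vj l') (dens χ Ξ fun x => c + r • x) v) =
      Complex.I • ((r : ℂ) • fam2 k (fun j => Tj Sj Vj (j + 1)) l m n f v +
        Tl k Sj Vj l m n (H746.vf (fun x => c + r • x) f) v) := ext_inner_left ℂ fun w => by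
  rw [(h.svl l').chT c r v w hK hc (Q.bose_fld _ ((h.p2l l).bose m n)) hf hs, h.actT l m n c r hf,
    add_sub_cancel_left, Complex.ofReal_one, one_mul]

/-- the components `N ^ j T''`, `j ≥ 1`, have no charges -/
theorem ward0 {j : ℕ} (hj : 1 ≤ j) (c : V) (r : ℝ) {K : Set V} {χ Ξ : V → ℝ} (hK : IsCompact K)
    (hc : Chg K χ Ξ) (hB : Q.fld B) (hf : IsTest f) (hs : tsupport f ⊆ K) (v : D) :
    TT (Tj Sj Vj j) (dens χ Ξ fun x => c + r • x) (B f v) =
      B f (TT (Tj Sj Vj j) (dens χ Ξ fun x => c + r • x) v) :=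
  sub_eq_zero.1 (ext_inner_left ℂ fun w => by
    rw [(h.svj j hj).chT c r v w hK hc hB hf hs, Complex.ofReal_zero, zero_mul, inner_zero_right])

/-- if the components `N ^ j T''`, `j ≥ 1`, vanish, then `T''` is canonical -/
theorem rel (h0 : ∀ j m n f v, 1 ≤ j → IsTest f → Tj Sj Vj j m n f v = 0) (l : ℝ) (m n : Ix)
    (hf : IsTest f) (v : D) : Tj Sj Vj 0 m n f v = Tl k Sj Vj l m n f v := by
  rw [Tl, imp_fam, fam2, ex0, Finset.sum_range_succ', Finset.sum_eq_zero fun j _ => by
    rw [show improveJ (Sj (j + 1)) (Vj (j + 1)) m n f v = 0 from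
      h0 _ m n f v (Nat.le_add_left 1 j) hf, smul_zero]]
  simp

theorem ct (h0 : ∀ j m n f v, 1 ≤ j → IsTest f → Tj Sj Vj j m n f v = 0) : CT Q (Tj Sj Vj 0) where
  cov m n s L a f v hs hL hf := by
    simp only [h.rel h0 0 m n hf, h.covl 0 m n a v hs hL hf,
      fun i j => h.rel h0 (0 + Real.log s) i j (test_sim hs hL a hf)]
  conserved n f v hf := h.consj 0 n v hf
  trace f v hf := h.trj 0 v hf
  bian i m n f v hf := h.bianj 0 i m n v hf

theorem can (h0 : ∀ j m n f v, 1 ≤ j → IsTest f → Tj Sj Vj j m n f v = 0)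
    {N : Set V → VonNeumannAlgebra (UniformSpace.Completion D)}
    {sg : ℕ → Fn → UniformSpace.Completion D} (hp : Pot Q N k Sj Vj sg) :
    Can Q (Tj Sj Vj 0) A N k Sj Vj sg :=
  ⟨h.ct h0, h.fam, h.pch, fun l m n f v hf => h.rel h0 l m n hf v, hp⟩

end Out

end

end Vale.Agent.P352X.ZZ.S0
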