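import Vale.Agent.P352Z.S0.Cl
import Vale.Agent.P352X.CL.LI

/-!
# P352Z, block S0: weighted dilates, pairs of a tensor and a vector field
-/

set_option linter.all false

open MeasureTheory Filter Topology
open scoped ComplexConjugate

namespace Vale.Agent.P352X.ZZ.S0

open Vale.Agent.P352 Vale.Agent.P352.GF Vale.Agent.P352.BW Vale.Agent.P352.H246
open Vale.Agent.P352.H496 Vale.Agent.P352.H755 Vale.Agent.P352.H15
open Vale.Agent.P352X.Fss Vale.Agent.P352Z
open Vale.Agent.P352X.CL (ph)

noncomputable section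

variable {D : Type*} [NormedAddCommGroup D] [InnerProductSpace ℂ D] {Q : Theory D}
  {A : (V → V) → D → D} {B C : Fld D} {f g : Fn} {κ s t r z : ℝ} {T T' : Ix → Ix → Fld D}
  {J J' : Ix → Fld D} {X : V → V}

/-- the dilation by `exp t` -/
def ue (Q : Theory D) (t : ℝ) : D →ₗ[ℂ] D := u Q _ (Real.exp_pos t)

/-- `f (exp t x)` -/
def de (t : ℝ) (f : Fn) : Fn := ds (Real.exp t) f

lemma de_test (t : ℝ) (hf : IsTest f) : IsTest (de t f) := ds_test (Real.exp_pos t) hf

lemma de_cpt (t : ℝ) (hf : HasCompactSupport f) : HasCompactSupport (de t f) :=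
  ds_cpt (Real.exp_pos t) hf

lemma de_apply (t : ℝ) (f : Fn) (x : V) : de t f x = f (Real.exp t • x) := ds_apply _ _ _

lemma de_de (s t : ℝ) (f : Fn) : de s (de t f) = de (s + t) f := funext fun x => by
  rw [de_apply, de_apply, de_apply, smul_smul, Real.exp_add, mul_comm]

lemma de_zero (f : Fn) : de 0 f = f := funext fun x => by rw [de_apply, Real.exp_zero, one_smul]

lemma de_pd (t : ℝ) (hf : IsTest f) (m : Ix) :
    pd m (de t f) = fun x => (Real.exp t : ℂ) * de t (pd m f) x := ds_pd (Real.exp_pos t) hf m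

lemma ue_vac (t : ℝ) : ue Q t Q.vac = Q.vac := Q.U_vac _ _ _ (Real.exp_pos t) H496.isLor_one

lemma ue_inner (t : ℝ) (v w : D) : inner ℂ (ue Q t v) (ue Q t w) = inner ℂ v w :=
  Q.U_inner _ _ _ _ _ (Real.exp_pos t) H496.isLor_one

/-- the similitudes as linear maps -/
def UL (Q : Theory D) {L : Ix → V} (hs : 0 < s) (hL : IsLor L) (a : V) : D →ₗ[ℂ] D :=
  ⟨⟨Q.U s L a, U_add hs hL a⟩, U_smul hs hL a⟩

lemma UL_apply {L : Ix → V} (hs : 0 < s) (hL : IsLor L) (a : V) (v : D) :
    UL Q hs hL a v = Q.U s L a v := rfl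

/-- the generators as linear maps -/
def AL (R : Rep Q A) (hX : IsSim r X) : D →ₗ[ℂ] D :=
  ⟨⟨A X, H746.A_addv R hX⟩, H746.A_smulv R hX⟩

section
variable (R : Rep Q A)
include R

lemma ue_ue (s t : ℝ) (v : D) : ue Q s (ue Q t v) = ue Q (s + t) v := by
  refine (R.mul _ _ 0 _ _ 0 v (Real.exp_pos s) (Real.exp_pos t) H496.isLor_one
    H496.isLor_one).trans ?_
  simp only [sim_dil, zero_add, one_smul, smul_zero, ← Real.exp_add]
  rfl

lemma ue_zero (v : D) : ue Q 0 v = v := by
  have := u_inv R (Real.exp_pos 0) v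
  rw [← sub_eq_zero, ← inner_self_eq_zero (𝕜 := ℂ), ← ue_inner 0, map_sub, ue_ue R, add_zero,
    sub_self, inner_zero_left]

lemma ue_neg (t : ℝ) (v : D) : ue Q (-t) (ue Q t v) = v := by rw [ue_ue R, neg_add_cancel, ue_zero R]

lemma neg_ue (t : ℝ) (v : D) : ue Q t (ue Q (-t) v) = v := by rw [ue_ue R, add_neg_cancel, ue_zero R]

lemma ue_adj (t : ℝ) (v w : D) : inner ℂ w (ue Q (-t) v) = inner ℂ (ue Q t w) v := by
  rw [← ue_inner t, neg_ue R]

lemma ue_U (t : ℝ) {L : Ix → V} (hL : IsLor L) (a : V) (v : D) :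
    ue Q t (Q.U 1 L a v) = Q.U 1 L (Real.exp t • a) (ue Q t v) :=
  (U_dil R (Real.exp_pos t) hL a v).1.trans (U_dil R (Real.exp_pos t) hL _ v).2.symm

lemma ue_A (t : ℝ) (hX : IsSim r X) (v : D) :
    ue Q t (A (fun z => Real.exp (-t) • X (Real.exp t • z)) v) = A X (ue Q t v) := by
  have hX1 : IsSim r fun z => Real.exp (-t) • X (Real.exp t • z) := by
    obtain ⟨c, w, h1, h2⟩ := hX
    refine ⟨Real.exp (-t) • c, w, h1, fun z n => ?_⟩
    simp only [Pi.smul_apply, h2, smul_eq_mul, mul_assoc, ← Finset.mul_sum, Real.exp_neg]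
    field_simp
  refine (N86.A_conj R hX1 (Real.exp_pos t) H496.isLor_one 0 _).trans ?_
  congr 1
  funext y
  have : H246.linv GF.one = GF.one := by
    funext m n
    fin_cases m <;> fin_cases n <;> simp [H246.linv, GF.one, bas, eta, o]
  simp only [this, sim_dil, zero_add, sub_zero, one_smul, smul_inv_smul₀ (Real.exp_pos t).ne',
    Real.exp_neg]

end

lemma sim_sc (t : ℝ) (hX : IsSim r X) : IsSim r fun z => Real.exp (-t) • X (Real.exp t • z) := by
  obtain ⟨c, w, h1, h2⟩ := hX
  refine ⟨Real.exp (-t) • c, w, h1, fun z n => ?_⟩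
  simp only [Pi.smul_apply, h2, smul_eq_mul, mul_assoc, ← Finset.mul_sum, Real.exp_neg]
  field_simp

/-- the dilate of a field, with a weight -/
def dw (Q : Theory D) (κ t : ℝ) (B : Fld D) : Fld D := fun f v =>
  (Real.exp (-(κ * t)) : ℂ) • ue Q (-t) (B (de (-t) f) (ue Q t v))

lemma dw_dl (κ t : ℝ) (B : Fld D) (f : Fn) (v : D) : dw Q κ t B f v =
    (Real.exp (-(κ * t)) : ℂ) • dl Q _ (Real.exp_pos (-t)) B f v := by
  have : ue Q t v = u Q _ (inv_pos.2 (Real.exp_pos (-t))) v := by
    show Q.U _ _ _ _ = Q.U _ _ _ _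
    rw [← Real.exp_neg, neg_neg]
  rw [dw, this]
  rfl

lemma Clo.fdw (h : Clo Q) (κ t : ℝ) (hB : Q.fld B) : Q.fld (dw Q κ t B) :=
  h.cg _ _ (h.lin _ _ _ h.zero (h.dil B _ _ hB)) fun f v _ => by rw [dw_dl, zero_add]

lemma Clo.bdw (h : Clo Q) (R : Rep Q A) (κ t : ℝ) (hB : Q.bose B) : Q.bose (dw Q κ t B) :=
  h.bcg (h.bsmul _ (h.bdil R _ hB)) fun f v _ => dw_dl κ t B f v

lemma dw_pd (hB : Q.fld B) (κ t : ℝ) (m : Ix) (hf : IsTest f) (v : D) :
    dw Q (κ + 1) t B (pd m f) v = dw Q κ t (fun f v => B (pd m f) v) f v := by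
  simp only [dw, de_pd _ hf, lin1 hB (de_test _ (Ap.test_pd m hf)), map_smul, smul_smul,
    ← Complex.ofReal_mul, ← Real.exp_add]
  congr 3
  ring

lemma dw_law (R : Rep Q A) (κ t s : ℝ) (B : Fld D) (g : Fn) (v : D) : dw Q κ t B g (ue Q s v) =
    (Real.exp (κ * s) : ℂ) • ue Q s (dw Q κ (t + s) B (de s g) v) := by
  simp only [dw, map_smul, ue_ue R, de_de, smul_smul, ← Complex.ofReal_mul, ← Real.exp_add]
  rw [show s + -(t + s) = -t by ring, show -(t + s) + s = -t by ring,
    show κ * s + -(κ * (t + s)) = -(κ * t) by ring]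

lemma dw_ad (R : Rep Q A) (κ t : ℝ) (h : Ad B C) : Ad (dw Q κ t B) (dw Q κ t C) :=
  fun f v w hf => by
    rw [dw, dw, inner_smul_left, inner_smul_right, Complex.conj_ofReal, ue_adj R,
      ← inner_conj_symm, ue_adj R, inner_conj_symm, h _ _ _ (de_test _ hf)]
    rfl

lemma dw_cov (R : Rep Q A) (κ t : ℝ) {ι : Type*} [Fintype ι] {ρ : ι → ℂ} {Φ : ι → Fld D}
    {L : Ix → V} (hL : IsLor L) (h : ∀ a f v, IsTest f → B f (Q.U 1 L a v) =
      ∑ j, ρ j • Q.U 1 L a (Φ j (fun x => f (sim 1 L a x)) v)) (a : V) (hf : IsTest f) (v : D) :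
    dw Q κ t B f (Q.U 1 L a v) =
      ∑ j, ρ j • Q.U 1 L a (dw Q κ t (Φ j) (fun x => f (sim 1 L a x)) v) := by
  have e : Real.exp (-t) • Real.exp t • a = a := by
    rw [smul_smul, ← Real.exp_add, neg_add_cancel, Real.exp_zero, one_smul]
  rw [dw, ue_U R t hL, h _ _ _ (de_test _ hf)]
  simp only [map_sum, map_smul, dw, ue_U R _ hL, e, Finset.smul_sum, U_smul one_pos hL]
  refine Finset.sum_congr rfl fun j _ => ?_
  rw [smul_comm]
  congr 5
  funext x
  rw [de_apply, de_apply, N86.c1_sim, N86.c1_sim 1 L a, simL_smul, smul_add, e, one_smul, one_smul]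

lemma inv_int (Λ : Sch →L[ℂ] ℂ) (h1 : ∀ a g, Λ (ST.tsl a g) = Λ g) :
    ∃ c, ∀ g : Sch, Λ g = (∫ x, g x) * c := by
  obtain ⟨φ, hφ⟩ := ST.exists_ai (volume : Measure V)
  refine ⟨Λ (φ 0), fun f => ?_⟩
  have h4 := (ST.clm_cnv (μ := volume) Λ f (φ 0)).2
  have h5 := (ST.clm_cnv (μ := volume) Λ (φ 0) f).2
  rw [ST.cnv_comm, h4] at h5
  simp only [h1, integral_smul_const, hφ.one 0, one_smul] at h5
  exact h5.symm

/-- one point functions are multiples of the integral -/
lemma vev_int (hB : Q.fld B) :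
    ∃ c, ∀ f, IsTest f → inner ℂ Q.vac (B f Q.vac) = (∫ x, f x) * c := by
  obtain ⟨c, hc⟩ := inv_int (innerSL ℂ Q.vac ∘L Grp.fC hB Q.vac) fun a g => by
    have h1 := Q.transl B a _ Q.vac hB ⟨ST.tsl a g, rfl⟩
    rw [Q.U_vac _ _ _ one_pos H496.isLor_one, Grp.tsl_sim] at h1
    show inner ℂ Q.vac (B _ Q.vac) = inner ℂ Q.vac (B _ Q.vac)
    rw [h1, ← Q.U_inner 1 _ a Q.vac (B (ev g) _) one_pos H496.isLor_one,
      Q.U_vac _ _ _ one_pos H496.isLor_one]
  refine ⟨c, fun f hf => ?_⟩
  obtain ⟨g, rfl⟩ := hf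
  exact hc g

lemma vev_dw (R : Rep Q A) (hB : Q.fld B) (κ t : ℝ) (hf : IsTest f) :
    inner ℂ Q.vac (dw Q κ t B f Q.vac) = ph (4 - κ, 0) t * inner ℂ Q.vac (B f Q.vac) := by
  obtain ⟨c, hc⟩ := vev_int hB
  have e : ∫ x, de (-t) f x = (Real.exp (4 * t) : ℂ) * ∫ x, f x := by
    simp only [de_apply]
    rw [Measure.integral_comp_smul volume f, Module.finrank_fin_fun, ← Real.exp_nat_mul,
      ← Real.exp_neg, abs_of_pos (Real.exp_pos _), Complex.real_smul]
    congr 3
    push_cast
    ring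
  rw [dw, inner_smul_right, ue_adj R, ue_vac, hc _ (de_test _ hf), hc _ hf, e, ph, ← mul_assoc,
    ← mul_assoc, ← mul_assoc]
  congr 2
  simp only [pow_zero, mul_one, Complex.ofReal_exp, ← Complex.exp_add]
  congr 1
  push_cast
  ring

/-- the current `X^n T_{0n} - r J_0` -/
def curV (T : Ix → Ix → Fld D) (J : Ix → Fld D) (r : ℝ) (X : V → V) (g : Fn) (u : D) : D :=
  ND.cur T X g u - (r : ℂ) • J o g u

/-- the charges of the currents `X^n T_{mn} - r J_m` are `z` times the generators -/
def SCh (z : ℝ) (Q : Theory D) (T : Ix → Ix → Fld D) (J : Ix → Fld D) (A : (V → V) → D → D) :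
    Prop :=
  ∀ F r X (B : Fld D) f v w, IsCutoff F → IsSim r X → Q.fld B → IsTest f → HasCompactSupport f →
    Tendsto (fun R => inner ℂ w (curV T J r X (F R) (B f v) - B f (curV T J r X (F R) v))) atTop
      (𝓝 (z * inner ℂ w (A X (B f v) - B f (A X v))))

/-- a symmetric conserved tensor and a vector field whose divergence is its trace -/
structure SV (z : ℝ) (Q : Theory D) (T : Ix → Ix → Fld D) (J : Ix → Fld D)
    (A : (V → V) → D → D) : Prop where
  bT : ∀ m n, Q.bose (T m n)
  hT : ∀ m n, Ad (T m n) (T m n)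
  cT : ∀ m n L a f v, IsLor L → IsTest f → T m n f (Q.U 1 L a v) =
    ∑ k, ∑ l, (L k m * L l n : ℂ) • Q.U 1 L a (T k l (fun x => f (sim 1 L a x)) v)
  bJ : ∀ m, Q.bose (J m)
  cJ : ∀ m L a f v, IsLor L → IsTest f → J m f (Q.U 1 L a v) =
    ∑ k, (L k m : ℂ) • Q.U 1 L a (J k (fun x => f (sim 1 L a x)) v)
  symm : ∀ m n f v, IsTest f → T m n f v = T n m f v
  conserved : ∀ n f v, IsTest f → ∑ m, T m n (pd m f) v = 0
  div : ∀ f v, IsTest f → GF.tr T f v = -∑ m, J m (pd m f) v
  sch : SCh z Q T J A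

lemma test_simr (hX : IsSim r X) (hg : IsTest g) (n : Ix) :
    IsTest fun x => (eta n : ℂ) * X x n * g x := by
  obtain ⟨c, w, -, h⟩ := hX
  refine Ap.sw_congr (Ap.sw_cmul (eta n) (Ap.sw_rmul (u := fun x => X x n) ?_ hg)) fun x =>
    mul_assoc _ _ _
  simp only [h]
  fun_prop

/-- the current as a linear map -/
def cVL (hT : ∀ m n, Q.fld (T m n)) (hJ : ∀ m, Q.fld (J m)) (hX : IsSim r X) (hg : IsTest g) :
    D →ₗ[ℂ] D := ∑ n, fl (hT o n) (test_simr hX hg n) - (r : ℂ) • fl (hJ o) hg

lemma cVL_apply (hT : ∀ m n, Q.fld (T m n)) (hJ : ∀ m, Q.fld (J m)) (hX : IsSim r X)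
    (hg : IsTest g) (v : D) : cVL hT hJ hX hg v = curV T J r X g v := by
  simp only [cVL, LinearMap.sub_apply, LinearMap.sum_apply, LinearMap.smul_apply, fl_apply]
  rfl

lemma SCh.clo (R : Rep Q A) (hT : ∀ m n, Q.fld (T m n)) (hJ : ∀ m, Q.fld (J m))
    (h : SCh z Q T J A) : SCh z (clo Q) T J A := fun F r X B f v w hF hX hB => by
  induction hB generalizing f with
  | base k => exact h F r X _ f v w hF hX k
  | zero =>
    intro _ _
    rw [show A X 0 = 0 from map_zero (AL R hX), sub_zero, inner_zero_right, mul_zero]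
    refine tendsto_const_nhds.congr' ((isTest_cutoff hF).mono fun R hR => ?_)
    simp only [← cVL_apply hT hJ hX hR, map_zero, sub_zero, inner_zero_right]
  | lin c _ _ h1 h2 =>
    intro hf hc
    convert ((h1 f hf hc).add ((h2 f hf hc).const_mul c)).congr'
      ((isTest_cutoff hF).mono fun R hR => ?_) using 2
    · simp only [H746.A_addv R hX, H746.A_smulv R hX, inner_sub_right, inner_add_right,
        inner_smul_right]
      ring
    · simp only [← cVL_apply hT hJ hX hR, map_add, map_smul, inner_sub_right, inner_add_right,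
        inner_smul_right]
      ring
  | der m _ h1 =>
    exact fun hf hc => h1 _ (Ap.test_pd m hf)
      (IsCompact.of_isClosed_subset hc (isClosed_tsupport _) (Ap.tsupport_pd m f))
  | cg _ e h1 => exact fun hf hc => by simpa only [e f _ hf] using h1 f hf hc

lemma isSim_id : IsSim 1 (id : V → V) := ⟨0, 0, fun _ _ => by simp, fun _ _ => by simp⟩

lemma sch_of (R : Rep Q A) (hT : ∀ m n, Q.fld (T m n)) (hP : ND.PCh Q T A)
    (hV : Virial0 Q T J A) : SCh 1 Q T J A := fun F r X B f v w hF hX hB hf hc => by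
  obtain ⟨c, ω, h1, h2⟩ := hX
  set X0 : V → V := fun z n => c n + ∑ m, z m * ω m n with hX0
  have s0 : IsSim 0 X0 := ⟨c, ω, h1, fun z n => by simp [hX0]⟩
  have eX : X = fun z => X0 z + r • id z := by
    funext z n
    simp only [h2, hX0, Pi.add_apply, Pi.smul_apply, id, smul_eq_mul]
    ring
  convert ((hP F X0 B f v w hF s0 hB hf hc).add
    ((hV.dil F B f v w hF hB hf hc).const_mul (r : ℂ))).congr'
    ((isTest_cutoff hF).mono fun R hR => ?_) using 2
  · simp only [eX, R.add 0 1 r X0 id _ s0 isSim_id, ← fl_apply hB hf, map_add, map_smul,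
      inner_sub_right, inner_add_right, inner_smul_right]
    push_cast
    ring
  · have e : ∀ y, curV T J r X (F R) y = ND.cur T X0 (F R) y + (r : ℂ) • dcur T J (F R) y :=
      fun y => by
        have : ∀ n, T o n (fun x => (eta n : ℂ) * X x n * F R x) y =
            T o n (fun x => (eta n : ℂ) * X0 x n * F R x) y +
              (r : ℂ) • T o n (fun x => (eta n : ℂ) * id x n * F R x) y := fun n => by
          rw [← Q.lin _ _ _ _ y (hT o n) (test_simr s0 hR n) (test_simr isSim_id hR n)]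
          congr 1
          funext x
          simp only [eX, Pi.add_apply, Pi.smul_apply, smul_eq_mul]
          push_cast
          ring
        simp only [curV, dcur, ND.cur, this, Finset.sum_add_distrib, smul_sub, Finset.smul_sum]
        abel
    simp only [e, ← fl_apply hB hf, map_add, map_smul, inner_sub_right, inner_add_right,
      inner_smul_right]
    ring

namespace SV

lemma fT (h : SV z Q T J A) (m n : Ix) : Q.fld (T m n) := Q.bose_fld _ (h.bT m n)

lemma fJ (h : SV z Q T J A) (m : Ix) : Q.fld (J m) := Q.bose_fld _ (h.bJ m)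

lemma cg (hC : Clo Q) (h : SV z Q T J A) (e1 : ∀ m n f v, IsTest f → T' m n f v = T m n f v)
    (e2 : ∀ m f v, IsTest f → J' m f v = J m f v) : SV z Q T' J' A where
  bT m n := hC.bcg (h.bT m n) (e1 m n)
  hT m n f v w hf := by rw [e1 m n f v hf, e1 m n _ w (Ap.test_bar hf), h.hT m n f v w hf]
  cT m n L a f v hL hf := by
    simp only [e1 _ _ f _ hf, e1 _ _ _ _ (Ap.test_sim one_pos hL a hf), h.cT m n L a f v hL hf]
  bJ m := hC.bcg (h.bJ m) (e2 m)
  cJ m L a f v hL hf := by
    simp only [e2 _ f _ hf, e2 _ _ _ (Ap.test_sim one_pos hL a hf), h.cJ m L a f v hL hf]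
  symm m n f v hf := by rw [e1 m n f v hf, e1 n m f v hf, h.symm m n f v hf]
  conserved n f v hf := by
    simp only [fun m => e1 m n _ v (Ap.test_pd m hf), h.conserved n f v hf]
  div f v hf := by
    simp only [fun m => e2 m _ v (Ap.test_pd m hf), ← h.div f v hf, GF.tr, e1 _ _ f v hf]
  sch F r X B f v w hF hX hB hf hc := (h.sch F r X B f v w hF hX hB hf hc).congr'
    ((isTest_cutoff hF).mono fun R hR => by
      simp only [curV, ND.cur, fun n y => e1 o n _ y (test_simr hX hR n), e2 o _ _ hR])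

lemma sum (hC : Clo Q) {ι : Type*} (S : Finset ι) (c : ι → ℝ) {z : ι → ℝ}
    {T : ι → Ix → Ix → Fld D} {J : ι → Ix → Fld D} (h : ∀ i, SV (z i) Q (T i) (J i) A) :
    SV (∑ i ∈ S, c i * z i) Q (fun m n f v => ∑ i ∈ S, (c i : ℂ) • T i m n f v)
      (fun m f v => ∑ i ∈ S, (c i : ℂ) • J i m f v) A where
  bT m n := hC.bsum S _ fun i => (h i).bT m n
  hT m n f v w hf := by
    simp only [sum_inner, inner_sum, inner_smul_left, inner_smul_right, Complex.conj_ofReal,
      fun i => (h i).hT m n f v w hf]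
  cT m n L a f v hL hf := by
    simp only [fun i => (h i).cT m n L a f v hL hf]
    simp only [← UL_apply one_pos hL, map_sum, map_smul, Finset.smul_sum]
    rw [Finset.sum_comm]
    refine Finset.sum_congr rfl fun k _ => ?_
    rw [Finset.sum_comm]
    exact Finset.sum_congr rfl fun l _ => Finset.sum_congr rfl fun t _ => smul_comm _ _ _
  bJ m := hC.bsum S _ fun i => (h i).bJ m
  cJ m L a f v hL hf := by
    simp only [fun i => (h i).cJ m L a f v hL hf]
    simp only [← UL_apply one_pos hL, map_sum, map_smul, Finset.smul_sum]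
    rw [Finset.sum_comm]
    exact Finset.sum_congr rfl fun l _ => Finset.sum_congr rfl fun t _ => smul_comm _ _ _
  symm m n f v hf := by simp only [fun i => (h i).symm m n f v hf]
  conserved n f v hf := by
    rw [Finset.sum_comm]
    simp only [← Finset.smul_sum, fun i => (h i).conserved n f v hf, smul_zero,
      Finset.sum_const_zero]
  div f v hf := by
    have := fun i => (h i).div f v hf
    simp only [GF.tr] at this ⊢
    simp only [Finset.smul_sum, smul_comm (eta _ : ℂ)]
    rw [Finset.sum_comm, Finset.sum_comm (s := Finset.univ)]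
    simp only [← Finset.smul_sum, this, smul_neg, Finset.sum_neg_distrib]
  sch F r X B f v w hF hX hB hf hc := by
    convert (tendsto_finset_sum S fun i _ =>
      ((h i).sch F r X B f v w hF hX hB hf hc).const_mul (c i : ℂ)).congr fun R => ?_ using 2
    · push_cast
      simp only [Finset.sum_mul, mul_assoc]
    · have e : ∀ y, curV (fun m n f v => ∑ i ∈ S, (c i : ℂ) • T i m n f v)
          (fun m f v => ∑ i ∈ S, (c i : ℂ) • J i m f v) r X (F R) y =
          ∑ i ∈ S, (c i : ℂ) • curV (T i) (J i) r X (F R) y := fun y => by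
        simp only [curV, ND.cur, smul_sub, Finset.sum_sub_distrib, Finset.smul_sum,
          smul_comm (r : ℂ)]
        rw [Finset.sum_comm]
      simp only [e, ← fl_apply hB hf, map_sum, map_smul, ← Finset.sum_sub_distrib, ← smul_sub,
        inner_sum, inner_smul_right]

lemma dil (hC : Clo Q) (R : Rep Q A) (h : SV z Q T J A) (t : ℝ) :
    SV z Q (fun m n => dw Q 0 t (T m n)) (fun m => dw Q 1 t (J m)) A where
  bT m n := hC.bdw R _ _ (h.bT m n)
  hT m n := dw_ad R _ _ (h.hT m n)
  cT m n L a f v hL hf := by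
    rw [← Fintype.sum_prod_type']
    exact dw_cov R 0 t (Φ := fun p : Ix × Ix => T p.1 p.2) hL (fun a f v hf => by
      rw [h.cT m n L a f v hL hf, ← Fintype.sum_prod_type']) a hf v
  bJ m := hC.bdw R _ _ (h.bJ m)
  cJ m L a f v hL hf := dw_cov R 1 t hL (fun a f v hf => h.cJ m L a f v hL hf) a hf v
  symm m n f v hf := by simp only [dw, h.symm m n _ _ (de_test _ hf)]
  conserved n f v hf := by
    have := fun m => dw_pd (h.fT m n) (-1) t m hf v
    simp only [neg_add_cancel] at this
    simp only [this]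
    simp only [dw, ← Finset.smul_sum, ← map_sum, h.conserved n _ _ (de_test _ hf), map_zero,
      smul_zero]
  div f v hf := by
    have := fun m => dw_pd (h.fJ m) 0 t m hf v
    simp only [zero_add] at this
    simp only [this]
    have e := h.div _ (ue Q t v) (de_test (-t) hf)
    simp only [GF.tr] at e ⊢
    simp only [dw, smul_comm (eta _ : ℂ), ← map_smul, ← Finset.smul_sum, ← map_sum, e, map_neg,
      smul_neg]
  sch F r X B f v w hF hX hB hf hc := by
    have hB' := hC.fdw 0 (-t) hB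
    have e1 : ∀ y, dw Q 0 (-t) B (de (-t) f) (ue Q t y) = ue Q t (B f y) := fun y => by
      simp only [dw, neg_neg, de_de, add_neg_cancel, de_zero, ue_neg R, zero_mul, neg_zero,
        Real.exp_zero, Complex.ofReal_one, one_smul]
    have e2 : ∀ P : D → D, inner ℂ w (ue Q (-t) (P (ue Q t (B f v))) -
        B f (ue Q (-t) (P (ue Q t v)))) = inner ℂ (ue Q t w)
          (P (dw Q 0 (-t) B (de (-t) f) (ue Q t v)) - dw Q 0 (-t) B (de (-t) f) (P (ue Q t v))) :=
      fun P => by
        rw [← ue_inner t w, map_sub, neg_ue R, e1 v, ← e1 (ue Q (-t) _), neg_ue R]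
    have hX' := sim_sc (-t) hX
    convert (h.sch _ r _ _ _ (ue Q t v) (ue Q t w) (cut_ds hF (Real.exp_pos (-t))) hX' hB'
      (de_test (-t) hf) (de_cpt (-t) hc)).congr' ((isTest_cutoff hF).mono fun ρ hρ => ?_) using 3
    · rw [← e2, ue_A R (-t) hX, ue_A R (-t) hX, ue_neg R, ue_neg R]
    · have e : ∀ y, curV (fun m n => dw Q 0 t (T m n)) (fun m => dw Q 1 t (J m)) r X (F ρ) y =
          ue Q (-t) (curV T J r (fun z => Real.exp (- -t) • X (Real.exp (-t) • z))
            (fun x => (Real.exp (-t) : ℂ) * ds (Real.exp (-t)) (F ρ) x) (ue Q t y)) := fun y => by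
        simp only [curV, ND.cur, dw, map_sub, map_sum, map_smul, zero_mul, neg_zero, Real.exp_zero,
          Complex.ofReal_one, one_smul, one_mul,
          lin1 (h.fJ o) (ds_test (Real.exp_pos (-t)) hρ)]
        congr 1
        refine Finset.sum_congr rfl fun n _ => ?_
        congr 2
        funext x
        simp only [de_apply, ds_apply, Pi.smul_apply, smul_eq_mul, neg_neg, Real.exp_neg]
        have := Complex.ofReal_ne_zero.2 (Real.exp_pos t).ne'
        push_cast at this ⊢
        field_simp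
      simp only [e]
      exact (e2 _).symm

lemma adj (hC : Clo Q) (R : Rep Q A) (h : SV z Q T J A) (hJ : ∀ m, Q.fld (J' m))
    (a : ∀ m, Ad (J m) (J' m)) : SV z Q T J' A :=
  have a' : ∀ m f v w, IsTest f → inner ℂ w (J' m f v) = inner ℂ (J m (bar f) w) v :=
    fun m f v w hf => by rw [a m _ _ _ (Ap.test_bar hf), Ap.bar_bar]
  have b' : ∀ m n f v w, IsTest f → inner ℂ w (T m n f v) = inner ℂ (T m n (bar f) w) v :=
    fun m n f v w hf => by rw [h.hT m n _ _ _ (Ap.test_bar hf), Ap.bar_bar]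
  { h with
    bJ := fun m => hC.badj (h.bJ m) (hJ m) (a m)
    cJ := fun m L y f v hL hf => ext_inner_left ℂ fun w => by
      rw [← ue_inv R one_pos hL y w, a' m f _ _ hf, h.cJ m L y _ _ hL (Ap.test_bar hf)]
      simp only [sum_inner, inner_sum, inner_smul_left, inner_smul_right, Complex.conj_ofReal,
        Q.U_inner _ _ _ _ _ one_pos hL, a' _ _ _ _ (Ap.test_sim one_pos hL y hf)]
      rfl
    div := fun f v hf => ext_inner_left ℂ fun w => by
      have e := congrArg (inner ℂ · v) (h.div _ w (Ap.test_bar hf))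
      simp only [GF.tr, sum_inner, inner_sum, inner_smul_left, inner_smul_right, inner_neg_left,
        inner_neg_right, Complex.conj_ofReal, b' _ _ f v w hf,
        fun m => a' m _ v w (Ap.test_pd m hf), ← pd_bar _ hf] at e ⊢
      exact e
    sch := fun F r X B f v w hF hX hB hf hc => by
      obtain ⟨B', hB', b⟩ := Q.adj B hB
      have k : ∀ P P' : D → D, (∀ x y, inner ℂ x (P' y) = inner ℂ (P x) y) →
          inner ℂ w (P' (B f v) - B f (P' v)) =
            -conj (inner ℂ v (P (B' (bar f) w) - B' (bar f) (P w))) := fun P P' e => by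
        have b1 : ∀ x y, inner ℂ x (B f y) = inner ℂ (B' (bar f) x) y := fun x y => by
          rw [← inner_conj_symm, b f y x hf, inner_conj_symm]
        rw [inner_conj_symm, inner_sub_left, inner_sub_right, e, b1, b1, e, neg_sub]
      have l := (Complex.continuous_conj.tendsto _).comp (h.sch F r X B' _ w v hF hX hB'
        (Ap.test_bar hf) (by rwa [HasCompactSupport, Ap.tsupport_bar]))
      rw [k (A X) (A X) fun x y => (H746.A_symm R hX x y).symm]
      convert l.neg.congr' ?_ using 2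
      · rw [map_mul, Complex.conj_ofReal, mul_neg]
      · obtain ⟨α, β, -, -, -, -, h3⟩ := hF
        filter_upwards [eventually_gt_atTop 0] with ρ hρ
        obtain ⟨t1, t2⟩ := h3 ρ hρ
        have e1 : bar (F ρ) = F ρ := funext fun x => by simp [bar, t2]
        have e2 : ∀ n, bar (fun x => (eta n : ℂ) * X x n * F ρ x) =
            fun x => (eta n : ℂ) * X x n * F ρ x := fun n => funext fun x => by simp [bar, t2]
        refine (k _ _ fun x y => ?_).symm
        simp only [curV, ND.cur, inner_sub_left, inner_sub_right, sum_inner, inner_sum,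
          inner_smul_left, inner_smul_right, Complex.conj_ofReal, a' o _ y x t1, e1,
          fun n => b' o n _ y x (test_simr hX t1 n), e2] }

end SV

end

end Vale.Agent.P352X.ZZ.S0
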