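import Vale.Agent.P352Z.S0.Dw

/-!
# P352Z, block S0: the logarithmic chains
-/

set_option linter.all false

open MeasureTheory Filter Topology
open scoped ComplexConjugate

namespace Vale.Agent.P352X.ZZ.S0

open Vale.Agent.P352 Vale.Agent.P352.GF Vale.Agent.P352.BW Vale.Agent.P352.H246
open Vale.Agent.P352.H496 Vale.Agent.P352.H755 Vale.Agent.P352.H15
open Vale.Agent.P352X.Fss Vale.Agent.P352Z
open Vale.Agent.P352X.CL (ph vd)
open UniformSpace (Completion)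

noncomputable section

lemma ph_conj (p : ℂ × ℕ) (t : ℝ) : conj (ph p t) = ph (conj p.1, p.2) t := by
  simp [ph, ← Complex.exp_conj]

lemma ph_add (d : ℂ) {i M : ℕ} (h : i < M) (t l : ℝ) : ph (d, i) (t + l) =
    ∑ j ∈ Finset.range M, (Complex.exp (l * d) * l ^ (i - j) * i.choose j) * ph (d, j) t := by
  rw [ph, Complex.ofReal_add, add_pow, Finset.sum_subset
    (Finset.range_mono h) fun i _ hi => by
      rw [Nat.choose_eq_zero_of_lt (by simpa using hi), Nat.cast_zero, mul_zero], Finset.mul_sum]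
  refine Finset.sum_congr rfl fun i _ => ?_
  rw [ph, add_mul, Complex.exp_add]
  ring

open Classical in
lemma vR (G : Finset (ℂ × ℕ)) (j : ℕ) : ∃ (S : Finset ℝ) (c : ℝ → ℝ), ∀ p ∈ G,
    ∑ t ∈ S, (c t : ℂ) * ph p t = if p = (0, j) then 1 else 0 := by
  obtain ⟨S, c, hc⟩ := vd (G ∪ G.image fun p => (conj p.1, p.2)) (0, j)
  refine ⟨S, fun t => (c t).re, fun p hp => ?_⟩
  have h1 := hc p (Finset.mem_union_left _ hp)
  have h2 := congrArg conj (hc _ (Finset.mem_union_right _ (Finset.mem_image_of_mem _ hp)))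
  simp only [map_sum, map_mul, ph_conj, Complex.conj_conj, apply_ite conj, map_one, map_zero,
    Prod.mk.eta] at h2
  rw [if_congr (show (conj p.1, p.2) = (0, j) ↔ p = (0, j) by simp [Prod.ext_iff]) rfl rfl] at h2
  simp only [Complex.re_eq_add_conj, div_mul_eq_mul_div, add_mul, ← Finset.sum_div,
    Finset.sum_add_distrib, h1, h2]
  split_ifs <;> norm_num

/-- dual coefficients -/
structure Du (Λ : Finset ℂ) (k : ℕ) (S : ℕ → Finset ℝ) (c : ℕ → ℝ → ℝ) : Prop where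
  m0 : 0 ∈ Λ
  m3 : 3 ∈ Λ
  m4 : 4 ∈ Λ
  yes : ∀ j ≤ k, ∑ t ∈ S j, (c j t : ℂ) * ph (0, j) t = j.factorial
  no : ∀ j, ∀ d ∈ Λ, ∀ i ≤ k, (d, i) ≠ (0, j) → ∑ t ∈ S j, (c j t : ℂ) * ph (d, i) t = 0

lemma ex_du (Λ : Finset ℂ) (k : ℕ) (h0 : 0 ∈ Λ) (h3 : 3 ∈ Λ) (h4 : 4 ∈ Λ) :
    ∃ S c, Du Λ k S c := by
  choose S c hc using vR (Λ ×ˢ Finset.range (k + 1))
  have e : ∀ j p, ∑ t ∈ S j, ((j.factorial * c j t : ℝ) : ℂ) * ph p t =
      j.factorial * ∑ t ∈ S j, (c j t : ℂ) * ph p t := fun j p => by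
    push_cast
    simp only [Finset.mul_sum, mul_assoc]
  refine ⟨S, fun j t => j.factorial * c j t, h0, h3, h4, fun j hj => ?_, fun j d hd i hi h => ?_⟩
  · rw [e, hc j _ (by simpa [h0, Nat.lt_succ_iff] using hj), if_pos rfl, mul_one]
  · rw [e, hc j _ (by simpa [hd, Nat.lt_succ_iff] using hi), if_neg h, mul_zero]

namespace Du

variable {Λ : Finset ℂ} {k : ℕ} {S : ℕ → Finset ℝ} {c : ℕ → ℝ → ℝ} (h : Du Λ k S c)
include h

lemma shift (j : ℕ) {d : ℂ} (hd : d ∈ Λ) {i : ℕ} (hi : i ≤ k) (l : ℝ) :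
    ∑ t ∈ S j, (c j t : ℂ) * ph (d, i) (t + l) = ∑ n ∈ Finset.range (k + 1),
      (Complex.exp (l * d) * l ^ (i - n) * i.choose n) * ∑ t ∈ S j, (c j t : ℂ) * ph (d, n) t := by
  simp only [ph_add d (Nat.lt_succ_of_le hi), Finset.mul_sum, mul_left_comm (c j _ : ℂ)]
  exact Finset.sum_comm

lemma sh_ne (j : ℕ) {d : ℂ} (hd : d ∈ Λ) (h0 : d ≠ 0) {i : ℕ} (hi : i ≤ k) (l : ℝ) :
    ∑ t ∈ S j, (c j t : ℂ) * ph (d, i) (t + l) = 0 := by
  rw [h.shift j hd hi]
  exact Finset.sum_eq_zero fun n hn => by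
    rw [h.no j d hd n (Nat.lt_succ_iff.1 (Finset.mem_range.1 hn)) fun e => h0 (congrArg Prod.fst e),
      mul_zero]

lemma sh_zero {i : ℕ} (hi : i ≤ k) (l : ℝ) :
    ∑ t ∈ S 0, (c 0 t : ℂ) * ph (0, i) (t + l) = (l : ℂ) ^ i := by
  rw [h.shift 0 h.m0 hi, Finset.sum_eq_single 0 (fun n hn h0 => by
    rw [h.no 0 0 h.m0 n (Nat.lt_succ_iff.1 (Finset.mem_range.1 hn))
      fun e => h0 (congrArg Prod.snd e), mul_zero]) (by simp), h.yes 0 (Nat.zero_le k)]
  simp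

lemma w0 : ∑ t ∈ S 0, c 0 t * 1 = 1 := by
  have := h.yes 0 (Nat.zero_le k)
  simp only [ph, mul_zero, Complex.exp_zero, pow_zero, mul_one, Nat.factorial_zero,
    Nat.cast_one] at this ⊢
  exact_mod_cast this

lemma w1 {j : ℕ} (hj : 1 ≤ j) : ∑ t ∈ S j, c j t * 1 = 0 := by
  have := h.no j 0 h.m0 0 (Nat.zero_le k) fun e => by
    have : 0 = j := congrArg Prod.snd e
    omega
  simp only [ph, mul_zero, Complex.exp_zero, pow_zero, mul_one] at this ⊢
  exact_mod_cast this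

end Du

variable {D : Type*} [NormedAddCommGroup D] [InnerProductSpace ℂ D] {Q : Theory D}
  {A : (V → V) → D → D} {B C : Fld D} {f g : Fn} {κ s t r z : ℝ} {T : Ix → Ix → Fld D}
  {J : Ix → Fld D} {G G' : Finset (ℂ × ℕ)}

/-- the dilates are exponential polynomials -/
def Xp (Q : Theory D) (κ : ℝ) (B : Fld D) (G : Finset (ℂ × ℕ)) : Prop :=
  ∃ y : ℂ × ℕ → Fld D, ∀ t f v, IsTest f → dw Q κ t B f v = ∑ p ∈ G, ph p t • y p f v

lemma Xp.mono (h : Xp Q κ B G) (k : G ⊆ G') : Xp Q κ B G' := by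
  classical
  obtain ⟨y, hy⟩ := h
  refine ⟨fun p f v => if p ∈ G then y p f v else 0, fun t f v hf => ?_⟩
  rw [hy t f v hf, ← Finset.sum_subset k fun p _ hp => by simp only [if_neg hp, smul_zero]]
  exact Finset.sum_congr rfl fun p hp => by simp only [if_pos hp]

lemma Xp.sum {ι : Type*} (t : Finset ι) (c : ι → ℂ) {X : ι → Fld D} (h : ∀ i, Xp Q κ (X i) G) :
    Xp Q κ (fun f v => ∑ i ∈ t, c i • X i f v) G := by
  choose y hy using h
  refine ⟨fun p f v => ∑ i ∈ t, c i • y i p f v, fun s f v hf => ?_⟩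
  have : dw Q κ s (fun f v => ∑ i ∈ t, c i • X i f v) f v = ∑ i ∈ t, c i • dw Q κ s (X i) f v := by
    simp only [dw, map_sum, map_smul, Finset.smul_sum, smul_comm (c _)]
  simp only [this, hy _ s f v hf, Finset.smul_sum, smul_comm (c _)]
  exact Finset.sum_comm

lemma dw_scl (R : Rep Q A) {F : Finset (ℂ × ℕ)} {C : ℂ × ℕ → Fld D} (h : Scl Q B F C) (κ t : ℝ)
    (hf : IsTest f) (v : D) :
    dw Q κ t B f v = ∑ p ∈ F, ph (4 - κ - p.1, p.2) t • C p f v := by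
  have e := h.2 _ _ v (Real.exp_pos t) (de_test (-t) hf)
  rw [dw, show B _ (ue Q t v) = _ from e, map_sum, Finset.smul_sum]
  refine Finset.sum_congr rfl fun p _ => ?_
  rw [map_smul, smul_smul, show (fun x => de (-t) f (sim (Real.exp t) GF.one 0 x)) = f from
    (de_de t (-t) f).trans (by rw [add_neg_cancel, de_zero]), show Q.U _ _ _ _ = ue Q t _ from rfl,
    ue_neg R, Real.log_exp, Complex.cpow_def_of_ne_zero
    (Complex.ofReal_ne_zero.2 (Real.exp_pos _).ne'), ← Complex.ofReal_log (Real.exp_pos _).le,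
    Real.log_exp, ph, Complex.ofReal_exp, ← mul_assoc, ← Complex.exp_add]
  congr 3
  push_cast
  ring

/-- the index set of the dilates -/
def shf (κ : ℝ) (F : Finset (ℂ × ℕ)) : Finset (ℂ × ℕ) :=
  F.map ⟨fun p => (4 - κ - p.1, p.2), fun p q e => by
    simp only [Prod.ext_iff, sub_right_inj] at e ⊢
    exact e⟩

lemma xp_scl (R : Rep Q A) {F : Finset (ℂ × ℕ)} {C : ℂ × ℕ → Fld D} (h : Scl Q B F C) (κ : ℝ) :
    Xp Q κ B (shf κ F) :=
  ⟨fun p => C (4 - κ - p.1, p.2), fun t f v hf => by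
    rw [dw_scl R h κ t hf, shf, Finset.sum_map]
    refine Finset.sum_congr rfl fun p _ => ?_
    show _ = ph (4 - κ - p.1, p.2) t • C (4 - κ - (4 - κ - p.1), p.2) f v
    rw [sub_sub_cancel]⟩

/-- combinations of dilates -/
def cmb (Q : Theory D) (κ : ℝ) (S : Finset ℝ) (c : ℝ → ℝ) (l : ℝ) (B : Fld D) : Fld D :=
  fun f v => ∑ t ∈ S, (c t : ℂ) • dw Q κ (t + l) B f v

lemma cmb_eq {S : Finset ℝ} {c : ℝ → ℝ} {l : ℝ} {ι : Type*} {F : Finset ι} {π : ι → ℂ × ℕ}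
    {y : ι → D} {v : D} (h : ∀ t, dw Q κ t B f v = ∑ p ∈ F, ph (π p) t • y p) :
    cmb Q κ S c l B f v = ∑ p ∈ F, (∑ t ∈ S, (c t : ℂ) * ph (π p) (t + l)) • y p := by
  simp only [cmb, h, Finset.smul_sum, smul_smul, Finset.sum_smul]
  exact Finset.sum_comm

lemma cmb_law (R : Rep Q A) (S : Finset ℝ) (c : ℝ → ℝ) (l s : ℝ) (B : Fld D) (g : Fn) (v : D) :
    cmb Q κ S c l B g (ue Q s v) =
      (Real.exp (κ * s) : ℂ) • ue Q s (cmb Q κ S c (l + s) B (de s g) v) := by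
  simp only [cmb, dw_law R, map_sum, map_smul, Finset.smul_sum, add_assoc]
  exact Finset.sum_congr rfl fun t _ => smul_comm _ _ _

lemma cmb_ad (R : Rep Q A) (S : Finset ℝ) (c : ℝ → ℝ) (l : ℝ) (h : Ad B B) :
    Ad (cmb Q κ S c l B) (cmb Q κ S c l B) := fun f v w hf => by
  simp only [cmb, sum_inner, inner_sum, inner_smul_left, inner_smul_right, Complex.conj_ofReal,
    fun t => dw_ad R κ t h f v w hf]

namespace Du

variable {Λ : Finset ℂ} {k : ℕ} {S : ℕ → Finset ℝ} {c : ℕ → ℝ → ℝ} (h : Du Λ k S c)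
include h

lemma perp (R : Rep Q A) (hB : Q.fld B) (hκ : κ = 0 ∨ κ = 1) (j : ℕ) (l : ℝ) (hf : IsTest f) :
    inner ℂ Q.vac (cmb Q κ (S j) (c j) l B f Q.vac) = 0 := by
  simp only [cmb, inner_sum, inner_smul_right, vev_dw R hB _ _ hf, ← mul_assoc, ← Finset.sum_mul]
  rw [h.sh_ne j _ _ (Nat.zero_le k), zero_mul]
  · rcases hκ with rfl | rfl
    · simpa using h.m4
    · convert h.m3
      norm_num
  · rcases hκ with rfl | rfl <;> norm_num

lemma top (x : Xp Q κ B (Λ ×ˢ Finset.range (k + 1))) {j : ℕ} (hj : k < j) (hf : IsTest f) (v : D) :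
    cmb Q κ (S j) (c j) 0 B f v = 0 := by
  obtain ⟨y, hy⟩ := x
  rw [cmb_eq (π := id) fun t => hy t f v hf]
  refine Finset.sum_eq_zero fun p hp => ?_
  obtain ⟨h1, h2⟩ := Finset.mem_product.1 hp
  have h3 := Nat.lt_succ_iff.1 (Finset.mem_range.1 h2)
  simp only [add_zero, id]
  rw [h.no j p.1 h1 p.2 h3 fun e => by
    have : p.2 = j := congrArg Prod.snd e
    omega, zero_smul]

lemma fam (x : Xp Q κ B (Λ ×ˢ Finset.range (k + 1))) (l : ℝ) (hf : IsTest f) (v : D) :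
    (ex0 k l fun j => cmb Q κ (S j) (c j) 0 B f v) = cmb Q κ (S 0) (c 0) l B f v := by
  obtain ⟨y, hy⟩ := x
  simp only [ex0, cmb_eq (π := id) fun t => hy t f v hf, id, add_zero]
  rw [Finset.sum_product, Finset.sum_eq_single 0 (fun d hd h0 => Finset.sum_eq_zero fun i hi => by
    rw [h.sh_ne 0 hd h0 (Nat.lt_succ_iff.1 (Finset.mem_range.1 hi)), zero_smul])
    fun h0 => absurd h.m0 h0]
  refine Finset.sum_congr rfl fun j hj => ?_
  have hj' := Nat.lt_succ_iff.1 (Finset.mem_range.1 hj)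
  rw [h.sh_zero hj', Finset.sum_eq_single (0, j) (fun p hp h0 => by
    obtain ⟨h1, h2⟩ := Finset.mem_product.1 hp
    rw [h.no j p.1 h1 p.2 (Nat.lt_succ_iff.1 (Finset.mem_range.1 h2)) h0, zero_smul])
    fun h0 => absurd (Finset.mem_product.2 ⟨h.m0, hj⟩) h0, h.yes j hj', smul_smul]
  congr 1
  have : (j.factorial : ℂ) ≠ 0 := Nat.cast_ne_zero.2 j.factorial_ne_zero
  push_cast
  field_simp

end Du

/-- the result of step 0 -/
structure Out (Q : Theory D) (A : (V → V) → D → D) (k : ℕ) (Sj : ℕ → Ix → Ix → Fld D)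
    (Vj : ℕ → Ix → Fld D) : Prop where
  clo : Clo Q
  rep : Rep Q A
  fam : Fam Q k Sj Vj
  svl : ∀ l, SV 1 Q (fam2 k Sj l) (fam1 k Vj l) A
  svj : ∀ j, 1 ≤ j → SV 0 Q (Sj j) (Vj j) A

lemma SCh.pch (h : SCh 1 Q T J A) : ND.PCh Q T A := fun F X B f v w hF hX hB hf hc => by
  simpa [curV] using h F 0 X B f v w hF hX hB hf hc

lemma Out.pch {k : ℕ} {Sj : ℕ → Ix → Ix → Fld D} {Vj : ℕ → Ix → Fld D} (h : Out Q A k Sj Vj)
    (l : ℝ) : ND.PCh Q (fam2 k Sj l) A := (h.svl l).sch.pch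

lemma out_of (hC : Clo Q) (R : Rep Q A) (h : SV 1 Q T J A) (hJ : ∀ m, Ad (J m) (J m))
    {Λ : Finset ℂ} {k : ℕ} {S : ℕ → Finset ℝ} {c : ℕ → ℝ → ℝ} (d : Du Λ k S c)
    (xT : ∀ m n, Xp Q 0 (T m n) (Λ ×ˢ Finset.range (k + 1)))
    (xJ : ∀ m, Xp Q 1 (J m) (Λ ×ˢ Finset.range (k + 1))) :
    Out Q A k (fun j m n => cmb Q 0 (S j) (c j) 0 (T m n))
      fun j m => cmb Q 1 (S j) (c j) 0 (J m) := by
  have sv : ∀ j l, SV (∑ t ∈ S j, c j t * 1) Q (fun m n => cmb Q 0 (S j) (c j) l (T m n))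
      (fun m => cmb Q 1 (S j) (c j) l (J m)) A := fun j l =>
    SV.sum hC (S j) (c j) fun t => h.dil hC R (t + l)
  have e2 : ∀ l m n f v, IsTest f → fam2 k (fun j m n => cmb Q 0 (S j) (c j) 0 (T m n)) l m n f v =
      cmb Q 0 (S 0) (c 0) l (T m n) f v := fun l m n f v hf => d.fam (xT m n) l hf v
  have e1 : ∀ l m f v, IsTest f → fam1 k (fun j m => cmb Q 1 (S j) (c j) 0 (J m)) l m f v =
      cmb Q 1 (S 0) (c 0) l (J m) f v := fun l m f v hf => d.fam (xJ m) l hf v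
  have svl := fun l => (d.w0 ▸ sv 0 l).cg hC (e2 l) (e1 l)
  have law : ∀ s (hs : 0 < s) L (hL : IsLor L) a (f : Fn) v, Q.U s L a v =
      Q.U 1 L a (ue Q (Real.log s) v) ∧ de (Real.log s) (fun x => f (sim 1 L a x)) =
        fun x => f (sim s L a x) := fun s hs L hL a f v => by
    constructor
    · have := (U_dil R (Real.exp_pos (Real.log s)) hL a v).2
      rw [show ue Q (Real.log s) v = u Q _ (Real.exp_pos (Real.log s)) v from rfl, this,
        Real.exp_log hs]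
    · funext x
      rw [de_apply, Real.exp_log hs]
      simp only [N86.c1_sim _ L a, simL_smul, one_smul]
  refine ⟨hC, R, ⟨fun j => ⟨(sv j 0).bT, (sv j 0).hT, (sv j 0).cT, fun m n f hf => ?_⟩,
    fun j => ⟨(sv j 0).bJ, fun m => cmb_ad R _ _ _ (hJ m), (sv j 0).cJ, fun m f hf => ?_⟩,
    fun l => ⟨(svl l).bT, (svl l).hT, (svl l).cT, fun m n f hf => ?_⟩,
    fun l => ⟨(svl l).bJ, fun m f v w hf => ?_, (svl l).cJ, fun m f hf => ?_⟩,
    fun j m n f v hj hf => d.top (xT m n) hj hf v, fun j m f v hj hf => d.top (xJ m) hj hf v,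
    fun j => (sv j 0).symm, fun j => (sv j 0).conserved, fun j => (sv j 0).div,
    fun l m n s L a f v hs hL hf => ?_, fun l m s L a f v hs hL hf => ?_⟩, svl,
    fun j hj => d.w1 hj ▸ sv j 0⟩
  · exact d.perp R (h.fT m n) (.inl rfl) j 0 hf
  · exact d.perp R (h.fJ m) (.inr rfl) j 0 hf
  · exact (congrArg _ (e2 l m n f _ hf)).trans (d.perp R (h.fT m n) (.inl rfl) 0 l hf)
  · rw [e1 l m f v hf, e1 l m _ w (Ap.test_bar hf), cmb_ad R _ _ _ (hJ m) f v w hf]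
  · exact (congrArg _ (e1 l m f _ hf)).trans (d.perp R (h.fJ m) (.inr rfl) 0 l hf)
  · have t1 := Ap.test_sim one_pos hL a hf
    rw [(law s hs L hL a f v).1, (svl l).cT m n L a f _ hL hf]
    simp only [e2 _ _ _ _ _ t1, e2 _ _ _ _ _ (Ap.test_sim hs hL a hf), cmb_law R, zero_mul,
      Real.exp_zero, Complex.ofReal_one, one_smul, (law s hs L hL a f v).2,
      ← (law s hs L hL a f _).1]
  · have t1 := Ap.test_sim one_pos hL a hf
    rw [(law s hs L hL a f v).1, (svl l).cJ m L a f _ hL hf]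
    simp only [e1 _ _ _ _ t1, e1 _ _ _ _ (Ap.test_sim hs hL a hf), cmb_law R, one_mul,
      Real.exp_log hs, (law s hs L hL a f v).2, U_smul one_pos hL, ← (law s hs L hL a f _).1,
      smul_smul, mul_comm (s : ℂ)]

/-- **step 0** -/
theorem s0a (hT : Stress0 Q T) (hP : ND.PCh Q T A) (hV : Virial0 Q T J A) (R : Rep Q A)
    (hF : FSL Q) : ∃ k Sj Vj, Out (clo Q) A k Sj Vj ∧ ∀ m n, ∃ F C, Scl Q (T m n) F C ∧
      ∀ j f v, IsTest f → ((4, j) ∈ F → Sj j m n f v = (j.factorial : ℂ) • C (4, j) f v) ∧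
        ((4, j) ∉ F → Sj j m n f v = 0) := by
  classical
  have hb := fun m n => Q.bose_fld _ (hT.bose m n)
  have hj := fun m => Q.bose_fld _ (hV.bose m)
  have E := clo_enl Q
  have R' := clo_rep R
  have hC := clo_clo R hF
  choose J' hJ' a using fun m => Q.adj _ (hj m)
  have h1 : SV 1 (clo Q) T J A := ⟨fun m n => E.bose _ (hT.bose m n), hT.herm, hT.cov,
    fun m => E.bose _ (hV.bose m), hV.cov, hT.symm, hT.conserved, hV.div,
    (sch_of R hb hP hV).clo R hb hj⟩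
  let JJ : Bool → Ix → Fld D := fun b => cond b J J'
  have h2 := (SV.sum hC Finset.univ (fun _ => 1 / 2) (z := fun _ => 1) (T := fun _ => T) (J := JJ)
    fun b => by
      cases b
      exacts [h1.adj hC R' (fun m => E.fld _ (hJ' m)) a, h1]).cg hC (T' := T)
      (fun m n f v _ => by
        rw [Fintype.sum_bool, ← add_smul]
        norm_num) fun _ _ _ _ => rfl
  rw [show ∑ _i : Bool, (1 / 2 : ℝ) * 1 = 1 by simp] at h2
  choose F C hS using fun m n => hF _ (hb m n)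
  choose F' C' hS' using fun b m => hF (JJ b m) (by cases b; exacts [hJ' m, hj m])
  let G := (Finset.univ.biUnion fun p : Ix × Ix => shf 0 (F p.1 p.2)) ∪
    Finset.univ.biUnion fun p : Bool × Ix => shf 1 (F' p.1 p.2)
  let Λ : Finset ℂ := G.image Prod.fst ∪ {0, 3, 4}
  have hG : G ⊆ Λ ×ˢ Finset.range (G.sup Prod.snd + 1) := fun p hp => Finset.mem_product.2
    ⟨Finset.mem_union_left _ (Finset.mem_image_of_mem _ hp),
      Finset.mem_range.2 (Nat.lt_succ_of_le (Finset.le_sup (f := Prod.snd) hp))⟩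
  have g1 : ∀ m n, shf 0 (F m n) ⊆ Λ ×ˢ Finset.range (G.sup Prod.snd + 1) := fun m n p hp =>
    hG (Finset.mem_union_left _ (Finset.mem_biUnion.2 ⟨(m, n), Finset.mem_univ _, hp⟩))
  obtain ⟨S, c, d⟩ := ex_du Λ (G.sup Prod.snd) (by simp [Λ]) (by simp [Λ]) (by simp [Λ])
  refine ⟨_, _, _, out_of hC R' h2 (fun m f v w hf => ?_) d
    (fun m n => (xp_scl R (hS m n) 0).mono (g1 m n)) fun m => Xp.sum _ _ fun b =>
      (xp_scl R (hS' b m) 1).mono fun p hp => hG (Finset.mem_union_right _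
        (Finset.mem_biUnion.2 ⟨(b, m), Finset.mem_univ _, hp⟩)), fun m n =>
    ⟨F m n, C m n, hS m n, fun j f v hf => ?_⟩⟩
  · simp only [Fintype.sum_bool, JJ, cond, inner_add_left, inner_add_right, inner_smul_left,
      inner_smul_right, Complex.conj_ofReal, a m f v w hf, Ad.symm (a m) f v w hf, add_comm]
  · have g2 : ∀ p ∈ F m n, 4 - ((0 : ℝ) : ℂ) - p.1 ∈ Λ ∧ p.2 ≤ G.sup Prod.snd := fun p hp =>
      let ⟨u1, u2⟩ := Finset.mem_product.1 (g1 m n (Finset.mem_map_of_mem _ hp))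
      ⟨u1, Nat.lt_succ_iff.1 (Finset.mem_range.1 u2)⟩
    have no : ∀ p ∈ F m n, p ≠ (4, j) → (∑ t ∈ S j, (c j t : ℂ) *
        ph (4 - ((0 : ℝ) : ℂ) - p.1, p.2) (t + 0)) • C m n p f v = 0 := fun p hp h0 => by
      simp only [add_zero]
      rw [d.no j _ (g2 p hp).1 _ (g2 p hp).2 fun e => h0 (by
        simp only [Prod.ext_iff, Complex.ofReal_zero, sub_zero, sub_eq_zero] at e ⊢
        exact ⟨e.1.symm, e.2⟩), zero_smul]
    have e := cmb_eq (S := S j) (c := c j) (l := 0) fun t => dw_scl R (hS m n) 0 t hf v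
    refine ⟨fun h => e.trans ?_, fun h => e.trans
      (Finset.sum_eq_zero fun p hp => no p hp fun e => h (e ▸ hp))⟩
    rw [Finset.sum_eq_single (4, j) no fun h' => absurd h h']
    simp only [add_zero, Complex.ofReal_zero, sub_zero, sub_self]
    rw [d.yes j (g2 _ h).2]

end

end Vale.Agent.P352X.ZZ.S0
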